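import Mathlib

/-!
Prékopa–Leindler at the midpoint, for the standard Gaussian measure of `ℝ^n`.
-/

open MeasureTheory ProbabilityTheory Set
open scoped ENNReal

namespace Vale.Agent.P262.Gauss

/-- One-dimensional Brunn–Minkowski inequality at the midpoint. -/
lemma bm_half {A B C : Set ℝ} (hA : MeasurableSet A) (hB : MeasurableSet B)
    (hA0 : A.Nonempty) (hB0 : B.Nonempty)
    (h : ∀ a ∈ A, ∀ b ∈ B, (a + b) / 2 ∈ C) :
    volume A + volume B ≤ 2 * volume C := by
  set D : Set ℝ := (fun x => (2 : ℝ)⁻¹ * x) ⁻¹' C with hD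
  have hvol : volume D = 2 * volume C := by
    rw [hD, Real.volume_preimage_mul_left (by norm_num)]
    norm_num
  rw [← hvol]
  have key : ∀ A', IsCompact A' → A' ⊆ A → A'.Nonempty → ∀ B', IsCompact B' → B' ⊆ B →
      B'.Nonempty → volume A' + volume B' ≤ volume D := by
    intro A' hA' hAA hAne B' hB' hBB hBne
    set a1 := sSup A'
    set b1 := sInf B'
    have ha1 : a1 ∈ A' := hA'.sSup_mem hAne
    have hb1 : b1 ∈ B' := hB'.sInf_mem hBne
    set P : Set ℝ := (fun x => x + (-b1)) ⁻¹' A'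
    set Q : Set ℝ := (fun x => x + (-a1)) ⁻¹' B'
    have hP : volume P = volume A' := measure_preimage_add_right volume (-b1) A'
    have hQ : volume Q = volume B' := measure_preimage_add_right volume (-a1) B'
    have hQm : MeasurableSet Q := hB'.measurableSet.preimage (by fun_prop)
    have hsub : P ∪ Q ⊆ D := by
      rintro x (hx | hx)
      · have := h _ (hAA hx) _ (hBB hb1)
        rw [show (x + -b1 + b1) / 2 = (2 : ℝ)⁻¹ * x by ring] at this
        exact this
      · have := h _ (hAA ha1) _ (hBB hx)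
        rw [show (a1 + (x + -a1)) / 2 = (2 : ℝ)⁻¹ * x by ring] at this
        exact this
    have hint : volume (P ∩ Q) = 0 := by
      refine measure_mono_null (fun x hx => ?_) (measure_singleton (a1 + b1))
      have h1 : x + -b1 ≤ a1 := le_csSup hA'.bddAbove hx.1
      have h2 : b1 ≤ x + -a1 := csInf_le hB'.bddBelow hx.2
      simp only [mem_singleton_iff]
      linarith
    calc volume A' + volume B' = volume P + volume Q := by rw [hP, hQ]
      _ = volume (P ∪ Q) + volume (P ∩ Q) := (measure_union_add_inter P hQm).symm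
      _ ≤ volume D := by rw [hint, add_zero]; exact measure_mono hsub
  obtain ⟨a0, ha0⟩ := hA0
  obtain ⟨b0, hb0⟩ := hB0
  rw [hA.measure_eq_iSup_isCompact, hB.measure_eq_iSup_isCompact]
  simp only [iSup_and']
  refine ENNReal.biSup_add_biSup_le ?_ ?_ ?_
  · exact ⟨∅, empty_subset _, isCompact_empty⟩
  · exact ⟨∅, empty_subset _, isCompact_empty⟩
  · intro A' hA' B' hB'
    calc volume A' + volume B' ≤ volume (insert a0 A') + volume (insert b0 B') := by
          gcongr <;> exact subset_insert _ _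
      _ ≤ _ := key _ (hA'.2.insert _) (insert_subset ha0 hA'.1) (insert_nonempty _ _)
            _ (hB'.2.insert _) (insert_subset hb0 hB'.1) (insert_nonempty _ _)

lemma ennreal_mul_le_sq {a b c : ℝ≥0∞} (h : a + b ≤ 2 * c) : a * b ≤ c ^ 2 := by
  rcases eq_or_ne c ⊤ with rfl | hc
  · simp
  have ht : a + b ≠ ⊤ := ne_top_of_le_ne_top (ENNReal.mul_ne_top (by simp) hc) h
  obtain ⟨ha, hb⟩ := ENNReal.add_ne_top.1 ht
  lift a to NNReal using ha
  lift b to NNReal using hb
  lift c to NNReal using hc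
  norm_cast at h ⊢
  rw [← NNReal.coe_le_coe] at h ⊢
  push_cast at h ⊢
  nlinarith [sq_nonneg ((a : ℝ) - b), a.coe_nonneg, b.coe_nonneg, c.coe_nonneg]

/-- Prékopa–Leindler at the midpoint on the line, bounded functions. -/
lemma pl_line {f g h : ℝ → ℝ} (hf : Measurable f) (hg : Measurable g) (hh : Measurable h)
    (hf0 : ∀ x, 0 ≤ f x) (hg0 : ∀ x, 0 ≤ g x) (hh0 : ∀ x, 0 ≤ h x)
    (hfb : BddAbove (range f)) (hgb : BddAbove (range g))
    (hfg : ∀ x y, f x * g y ≤ h ((x + y) / 2) ^ 2) :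
    (∫⁻ x, ENNReal.ofReal (f x)) * (∫⁻ x, ENNReal.ofReal (g x))
      ≤ (∫⁻ x, ENNReal.ofReal (h x)) ^ 2 := by
  set sf := ⨆ x, f x
  set sg := ⨆ x, g x
  have hsf : ∀ x, f x ≤ sf := le_ciSup hfb
  have hsg : ∀ x, g x ≤ sg := le_ciSup hgb
  rcases le_or_gt sf 0 with hsf0 | hsf0
  · have : ∀ x, ENNReal.ofReal (f x) = 0 := fun x =>
      ENNReal.ofReal_of_nonpos ((hsf x).trans hsf0)
    simp [this]
  rcases le_or_gt sg 0 with hsg0 | hsg0
  · have : ∀ x, ENNReal.ofReal (g x) = 0 := fun x =>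
      ENNReal.ofReal_of_nonpos ((hsg x).trans hsg0)
    simp [this]
  set r := Real.sqrt (sf * sg)
  have hr : 0 < r := Real.sqrt_pos.2 (mul_pos hsf0 hsg0)
  have hr2 : r ^ 2 = sf * sg := Real.sq_sqrt (mul_pos hsf0 hsg0).le
  have scale : ∀ (k : ℝ → ℝ) (s : ℝ), Measurable k → 0 < s →
      ∫⁻ x, ENNReal.ofReal (k x) = ENNReal.ofReal s * ∫⁻ x, ENNReal.ofReal (k x / s) := by
    intro k s hk hs
    rw [← lintegral_const_mul _ (by fun_prop)]
    refine lintegral_congr fun x => ?_
    rw [← ENNReal.ofReal_mul hs.le]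
    congr 1
    field_simp
  have cake : ∀ k : ℝ → ℝ, Measurable k → (∀ x, 0 ≤ k x) →
      ∫⁻ x, ENNReal.ofReal (k x) = ∫⁻ t in Ioi (0 : ℝ), volume {x | t < k x} := fun k hk hk0 =>
    lintegral_eq_lintegral_meas_lt volume (Filter.Eventually.of_forall hk0) hk.aemeasurable
  have main : (∫⁻ x, ENNReal.ofReal (f x / sf)) + (∫⁻ x, ENNReal.ofReal (g x / sg))
      ≤ 2 * ∫⁻ x, ENNReal.ofReal (h x / r) := by
    rw [cake _ (hf.div_const _) (fun x => div_nonneg (hf0 x) hsf0.le),
      cake _ (hg.div_const _) (fun x => div_nonneg (hg0 x) hsg0.le),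
      cake _ (hh.div_const _) (fun x => div_nonneg (hh0 x) hr.le),
      ← lintegral_const_mul' _ _ (by simp : (2 : ℝ≥0∞) ≠ ⊤)]
    refine (lintegral_add_left ?_ _).symm.le.trans
      (setLIntegral_mono' measurableSet_Ioi fun t ht => ?_)
    · exact Antitone.measurable fun s t hst => measure_mono fun x hx => lt_of_le_of_lt hst hx
    rcases le_or_gt 1 t with ht1 | ht1
    · have h1 : {x | t < f x / sf} = ∅ := by
        ext x
        simp only [mem_ofPred_eq, mem_empty_iff_false, iff_false, not_lt]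
        exact ((div_le_one hsf0).2 (hsf x)).trans ht1
      have h2 : {x | t < g x / sg} = ∅ := by
        ext x
        simp only [mem_ofPred_eq, mem_empty_iff_false, iff_false, not_lt]
        exact ((div_le_one hsg0).2 (hsg x)).trans ht1
      simp [h1, h2]
    · obtain ⟨x0, hx0⟩ := exists_lt_of_lt_ciSup
        (show t * sf < sf by nlinarith [mem_Ioi.1 ht])
      obtain ⟨y0, hy0⟩ := exists_lt_of_lt_ciSup
        (show t * sg < sg by nlinarith [mem_Ioi.1 ht])
      refine bm_half (measurableSet_lt measurable_const (hf.div_const _))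
        (measurableSet_lt measurable_const (hg.div_const _))
        ⟨x0, (lt_div_iff₀ hsf0).2 hx0⟩ ⟨y0, (lt_div_iff₀ hsg0).2 hy0⟩ fun a ha b hb => ?_
      have ha' : t < f a / sf := ha
      have hb' : t < g b / sg := hb
      have h1 : t * t < f a / sf * (g b / sg) := mul_lt_mul'' ha' hb' (mem_Ioi.1 ht).le
        (mem_Ioi.1 ht).le
      have h2 : f a / sf * (g b / sg) ≤ (h ((a + b) / 2) / r) ^ 2 := by
        rw [div_pow, hr2, div_mul_div_comm]
        exact div_le_div_of_nonneg_right (hfg a b) (mul_pos hsf0 hsg0).le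
      show t < h ((a + b) / 2) / r
      have h3 : 0 ≤ h ((a + b) / 2) / r := div_nonneg (hh0 _) hr.le
      nlinarith [mem_Ioi.1 ht]
  rw [scale f sf hf hsf0, scale g sg hg hsg0, scale h r hh hr, mul_mul_mul_comm,
    mul_pow, ← ENNReal.ofReal_mul hsf0.le, ← ENNReal.ofReal_pow hr.le, hr2]
  gcongr
  exact ennreal_mul_le_sq main

/-- Midpoint log-concavity of a measure (Prékopa–Leindler form, functions bounded by one). -/
def MidLC {α : Type*} [AddCommGroup α] [Module ℝ α] [MeasurableSpace α] (μ : Measure α) : Prop :=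
  ∀ f g h : α → ℝ≥0∞, Measurable f → Measurable g → Measurable h →
    (∀ x, f x ≤ 1) → (∀ x, g x ≤ 1) → (∀ x, h x ≤ 1) →
    (∀ x y, f x * g y ≤ h ((2 : ℝ)⁻¹ • (x + y)) ^ 2) →
    (∫⁻ x, f x ∂μ) * (∫⁻ x, g x ∂μ) ≤ (∫⁻ x, h x ∂μ) ^ 2

/-- The standard normal density. -/
noncomputable def dens (x : ℝ) : ℝ := gaussianPDFReal 0 1 x

lemma dens_eq (x : ℝ) : dens x = (Real.sqrt (2 * Real.pi))⁻¹ * Real.exp (-x ^ 2 / 2) := by
  simp [dens, gaussianPDFReal]

lemma dens_nonneg (x : ℝ) : 0 ≤ dens x := gaussianPDFReal_nonneg 0 1 x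

lemma dens_pos (x : ℝ) : 0 < dens x := gaussianPDFReal_pos 0 1 x one_ne_zero

lemma measurable_dens : Measurable dens := measurable_gaussianPDFReal 0 1

lemma dens_le {x y : ℝ} (h : |x| ≤ |y|) : dens y ≤ dens x := by
  rw [dens_eq, dens_eq]
  have : x ^ 2 ≤ y ^ 2 := sq_le_sq.2 h
  exact mul_le_mul_of_nonneg_left (Real.exp_le_exp.2 (by linarith))
    (inv_nonneg.2 (Real.sqrt_nonneg _))

lemma dens_mul_le (x y : ℝ) : dens x * dens y ≤ dens ((x + y) / 2) ^ 2 := by
  rw [dens_eq, dens_eq, dens_eq, mul_mul_mul_comm, ← Real.exp_add, mul_pow, ← Real.exp_nat_mul,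
    ← pow_two]
  refine mul_le_mul_of_nonneg_left (Real.exp_le_exp.2 ?_) (by positivity)
  push_cast
  nlinarith [sq_nonneg (x - y)]

lemma gaussian_eq_withDensity :
    gaussianReal 0 1 = volume.withDensity (fun x => ENNReal.ofReal (dens x)) :=
  gaussianReal_of_var_ne_zero 0 one_ne_zero

lemma lintegral_gaussian {f : ℝ → ℝ≥0∞} (hf : Measurable f) :
    ∫⁻ x, f x ∂(gaussianReal 0 1) = ∫⁻ x, ENNReal.ofReal (dens x) * f x := by
  rw [gaussian_eq_withDensity,
    lintegral_withDensity_eq_lintegral_mul _ measurable_dens.ennreal_ofReal hf]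
  rfl

lemma midLC_gaussianReal : MidLC (gaussianReal 0 1) := by
  intro f g h hf hg hh hf1 hg1 hh1 hfg
  have conv : ∀ k : ℝ → ℝ≥0∞, Measurable k → (∀ x, k x ≤ 1) →
      ∫⁻ x, k x ∂(gaussianReal 0 1) = ∫⁻ x, ENNReal.ofReal (dens x * (k x).toReal) := by
    intro k hk hk1
    rw [lintegral_gaussian hk]
    refine lintegral_congr fun x => ?_
    rw [ENNReal.ofReal_mul (dens_nonneg x),
      ENNReal.ofReal_toReal (ne_top_of_le_ne_top ENNReal.one_ne_top (hk1 x))]
  rw [conv f hf hf1, conv g hg hg1, conv h hh hh1]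
  have bdd : ∀ k : ℝ → ℝ≥0∞, (∀ x, k x ≤ 1) →
      BddAbove (range fun x => dens x * (k x).toReal) := by
    intro k hk1
    refine ⟨dens 0, ?_⟩
    rintro _ ⟨x, rfl⟩
    calc dens x * (k x).toReal ≤ dens 0 * 1 :=
          mul_le_mul (dens_le (by simp)) (ENNReal.toReal_le_of_le_ofReal zero_le_one
            (by simpa using hk1 x)) ENNReal.toReal_nonneg (dens_nonneg 0)
      _ = dens 0 := mul_one _
  refine pl_line (measurable_dens.mul hf.ennreal_toReal) (measurable_dens.mul hg.ennreal_toReal)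
    (measurable_dens.mul hh.ennreal_toReal)
    (fun x => mul_nonneg (dens_nonneg x) ENNReal.toReal_nonneg)
    (fun x => mul_nonneg (dens_nonneg x) ENNReal.toReal_nonneg)
    (fun x => mul_nonneg (dens_nonneg x) ENNReal.toReal_nonneg)
    (bdd f hf1) (bdd g hg1) fun x y => ?_
  have key : (f x).toReal * (g y).toReal ≤ (h ((x + y) / 2)).toReal ^ 2 := by
    rw [← ENNReal.toReal_mul, ← ENNReal.toReal_pow]
    refine ENNReal.toReal_mono (ENNReal.pow_ne_top
      (ne_top_of_le_ne_top ENNReal.one_ne_top (hh1 _))) ?_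
    have := hfg x y
    rwa [smul_eq_mul, show (2 : ℝ)⁻¹ * (x + y) = (x + y) / 2 by ring] at this
  calc dens x * (f x).toReal * (dens y * (g y).toReal)
      = dens x * dens y * ((f x).toReal * (g y).toReal) := by ring
    _ ≤ dens ((x + y) / 2) ^ 2 * (h ((x + y) / 2)).toReal ^ 2 :=
        mul_le_mul (dens_mul_le x y) key
          (mul_nonneg ENNReal.toReal_nonneg ENNReal.toReal_nonneg) (sq_nonneg _)
    _ = _ := by ring

variable {α β : Type*} [AddCommGroup α] [Module ℝ α] [MeasurableSpace α]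
  [AddCommGroup β] [Module ℝ β] [MeasurableSpace β]

lemma MidLC.prod {μ : Measure α} {ν : Measure β} [IsProbabilityMeasure μ] [IsProbabilityMeasure ν]
    (hμ : MidLC μ) (hν : MidLC ν) : MidLC (μ.prod ν) := by
  intro f g h hf hg hh hf1 hg1 hh1 hfg
  rw [lintegral_prod _ hf.aemeasurable, lintegral_prod _ hg.aemeasurable,
    lintegral_prod _ hh.aemeasurable]
  have le1 : ∀ k : α × β → ℝ≥0∞, (∀ p, k p ≤ 1) → ∀ x, ∫⁻ y, k (x, y) ∂ν ≤ 1 := fun k hk x =>
    (lintegral_mono fun y => hk (x, y)).trans (by simp)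
  refine hμ _ _ _ hf.lintegral_prod_right' hg.lintegral_prod_right' hh.lintegral_prod_right'
    (le1 f hf1) (le1 g hg1) (le1 h hh1) fun x x' => ?_
  exact hν _ _ _ (hf.comp measurable_prodMk_left) (hg.comp measurable_prodMk_left)
    (hh.comp measurable_prodMk_left) (fun y => hf1 _) (fun y => hg1 _) (fun y => hh1 _)
    fun y y' => by simpa using hfg (x, y) (x', y')

lemma MidLC.map {μ : Measure α} (hμ : MidLC μ) (L : α →ₗ[ℝ] β) (hL : Measurable L) :
    MidLC (μ.map L) := by
  intro f g h hf hg hh hf1 hg1 hh1 hfg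
  rw [lintegral_map hf hL, lintegral_map hg hL, lintegral_map hh hL]
  exact hμ _ _ _ (hf.comp hL) (hg.comp hL) (hh.comp hL) (fun x => hf1 _) (fun x => hg1 _)
    (fun x => hh1 _) fun x y => by simpa [map_add, map_smul] using hfg (L x) (L y)

/-- The standard Gaussian measure on `Fin n → ℝ`. -/
noncomputable def gpi (n : ℕ) : Measure (Fin n → ℝ) := Measure.pi fun _ => gaussianReal 0 1

instance (n : ℕ) : IsProbabilityMeasure (gpi n) := by
  unfold gpi; infer_instance

lemma map_cons_gpi (n : ℕ) :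
    ((gaussianReal 0 1).prod (gpi n)).map (fun p => (Fin.cons p.1 p.2 : Fin (n + 1) → ℝ))
      = gpi (n + 1) := by
  have h := (measurePreserving_piFinSuccAbove (fun _ : Fin (n + 1) => gaussianReal 0 1) 0).symm
    |>.map_eq
  unfold gpi
  convert h using 2
  · funext p
    simp [MeasurableEquiv.piFinSuccAbove, Fin.insertNthEquiv, Fin.insertNth_zero']

lemma midLC_gpi (n : ℕ) : MidLC (gpi n) := by
  induction n with
  | zero =>
    intro f g h _ _ _ _ _ _ hfg
    have e : ∀ k : (Fin 0 → ℝ) → ℝ≥0∞, ∫⁻ x, k x ∂(gpi 0) = k 0 := fun k => by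
      rw [lintegral_unique, measure_univ, mul_one]
      exact congrArg k (Subsingleton.elim _ _)
    simpa [e] using hfg 0 0
  | succ n ih =>
    rw [← map_cons_gpi n]
    let L : ℝ × (Fin n → ℝ) →ₗ[ℝ] (Fin (n + 1) → ℝ) :=
      { toFun := fun p => Fin.cons p.1 p.2
        map_add' := fun p q => by
          funext i; refine Fin.cases ?_ (fun j => ?_) i <;> simp
        map_smul' := fun c p => by
          funext i; refine Fin.cases ?_ (fun j => ?_) i <;> simp }
    refine (midLC_gaussianReal.prod ih).map L ?_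
    refine measurable_pi_lambda _ fun i => ?_
    refine Fin.cases ?_ (fun j => ?_) i
    · simpa [L] using measurable_fst
    · simpa [L, Function.comp_def] using (measurable_pi_apply j).comp measurable_snd

/-- Log-concavity for sets. -/
lemma MidLC.sets {μ : Measure α} (hμ : MidLC μ) {A B C : Set α} (hA : MeasurableSet A)
    (hB : MeasurableSet B) (hC : MeasurableSet C)
    (h : ∀ a ∈ A, ∀ b ∈ B, (2 : ℝ)⁻¹ • (a + b) ∈ C) :
    μ A * μ B ≤ μ C ^ 2 := by
  have := hμ (A.indicator 1) (B.indicator 1) (C.indicator 1) (measurable_one.indicator hA)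
    (measurable_one.indicator hB) (measurable_one.indicator hC)
    (fun x => indicator_le_self' (fun _ _ => by simp) x)
    (fun x => indicator_le_self' (fun _ _ => by simp) x)
    (fun x => indicator_le_self' (fun _ _ => by simp) x)
    (fun x y => by
      by_cases hx : x ∈ A
      · by_cases hy : y ∈ B
        · have := h x hx y hy
          simp only [indicator_of_mem, hx, hy, this, Pi.one_apply, one_mul, one_pow, le_refl]
        · simp [hy]
      · simp [hx])
  simpa [lintegral_indicator_one, hA, hB, hC] using this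

end Vale.Agent.P262.Gauss
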