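import Vale.Agent.P262.Gauss.Balance

/-!
Gaussian tail bounds (`G2`): quadratic forms, ellipsoids, slabs, nested coordinate balls.
-/

open MeasureTheory ProbabilityTheory Set
open scoped ENNReal RealInnerProductSpace

set_option linter.unusedSectionVars false

namespace Vale.Agent.P262.Gauss

lemma lintegral_exp_sq {a : ℝ} (ha0 : 0 ≤ a) (ha : a ≤ 1 / 4) :
    ∫⁻ x, ENNReal.ofReal (Real.exp (a * x ^ 2)) ∂(gaussianReal 0 1)
      ≤ ENNReal.ofReal (Real.exp (2 * a)) := by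
  rw [lintegral_gaussian (by fun_prop)]
  have hb : (0 : ℝ) < 1 / 2 - a := by linarith
  have h1 : ∀ x, ENNReal.ofReal (dens x) * ENNReal.ofReal (Real.exp (a * x ^ 2))
      = ENNReal.ofReal ((Real.sqrt (2 * Real.pi))⁻¹ * Real.exp (-(1 / 2 - a) * x ^ 2)) := by
    intro x
    rw [← ENNReal.ofReal_mul (dens_nonneg x), dens_eq, mul_assoc, ← Real.exp_add]
    congr 3
    ring
  simp_rw [h1]
  rw [← ofReal_integral_eq_lintegral_ofReal ((integrable_exp_neg_mul_sq hb).const_mul _)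
    (Filter.Eventually.of_forall fun x => by positivity), integral_const_mul, integral_gaussian]
  refine ENNReal.ofReal_le_ofReal ?_
  rw [← Real.sqrt_inv, ← Real.sqrt_mul (by positivity)]
  refine Real.sqrt_le_iff.2 ⟨(Real.exp_pos _).le, ?_⟩
  have h2 : (2 * Real.pi)⁻¹ * (Real.pi / (1 / 2 - a)) = (1 - 2 * a)⁻¹ := by
    have := Real.pi_ne_zero
    field_simp
  rw [h2, ← Real.exp_nat_mul]
  have h3 : 1 + 4 * a ≤ Real.exp (4 * a) := by linarith [Real.add_one_le_exp (4 * a)]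
  calc (1 - 2 * a)⁻¹ ≤ 1 + 4 * a := by
        rw [inv_le_iff_one_le_mul₀ (by linarith)]
        nlinarith
    _ ≤ Real.exp (4 * a) := h3
    _ = _ := by ring_nf

lemma lintegral_exp_quad : ∀ {n : ℕ} (a : Fin n → ℝ), (∀ i, 0 ≤ a i) → (∀ i, a i ≤ 1 / 4) →
    ∫⁻ x, ENNReal.ofReal (Real.exp (∑ i, a i * x i ^ 2)) ∂(gpi n)
      ≤ ENNReal.ofReal (Real.exp (2 * ∑ i, a i))
  | 0, a, _, _ => by simp
  | n + 1, a, ha0, ha => by
    have hcons : Measurable fun p : ℝ × (Fin n → ℝ) => (Fin.cons p.1 p.2 : Fin (n + 1) → ℝ) := by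
      refine measurable_pi_lambda _ fun i => ?_
      refine Fin.cases ?_ (fun j => ?_) i
      · simpa using measurable_fst
      · simpa [Function.comp_def] using (measurable_pi_apply j).comp measurable_snd
    rw [← map_cons_gpi n, lintegral_map (by fun_prop) hcons]
    simp only [Fin.sum_univ_succ, Fin.cons_zero, Fin.cons_succ, Real.exp_add,
      ENNReal.ofReal_mul (Real.exp_pos _).le]
    rw [lintegral_prod_mul (f := fun x => ENNReal.ofReal (Real.exp (a 0 * x ^ 2)))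
      (g := fun y : Fin n → ℝ => ENNReal.ofReal (Real.exp (∑ i : Fin n, a i.succ * y i ^ 2)))
      (Measurable.aemeasurable (by fun_prop)) (Measurable.aemeasurable (by fun_prop)), mul_add,
      Real.exp_add, ENNReal.ofReal_mul (Real.exp_pos _).le]
    exact mul_le_mul' (lintegral_exp_sq (ha0 0) (ha 0))
      (lintegral_exp_quad (fun i => a i.succ) (fun i => ha0 _) (fun i => ha _))

variable {E : Type*} [NormedAddCommGroup E] [InnerProductSpace ℝ E] [FiniteDimensional ℝ E]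
  [MeasurableSpace E] [BorelSpace E] {κ : Type*}

/-- Tail of a positive semidefinite quadratic form: trace and operator norm. -/
theorem quad_tail (A : E →ₗ[ℝ] E) (hA : A.IsSymmetric) (h0 : ∀ x, 0 ≤ ⟪A x, x⟫) {σ : ℝ}
    (hσ0 : 0 < σ) (hσ : ∀ x, ⟪A x, x⟫ ≤ σ * ‖x‖ ^ 2) (s : ℝ) :
    stdGaussian E {x | 2 * LinearMap.trace ℝ E A + 4 * s * σ < ⟪A x, x⟫}
      ≤ ENNReal.ofReal (Real.exp (-s)) := by
  set b := hA.eigenvectorBasis rfl
  set μ := hA.eigenvalues rfl
  have hAb : ∀ i, A (b i) = μ i • b i := fun i => hA.apply_eigenvectorBasis rfl i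
  have hμb : ∀ i, ⟪A (b i), b i⟫ = μ i := fun i => by
    rw [hAb, real_inner_smul_left, real_inner_self_eq_norm_sq, b.norm_eq_one]; simp
  have hμ0 : ∀ i, 0 ≤ μ i := fun i => hμb i ▸ h0 _
  have hμσ : ∀ i, μ i ≤ σ := fun i => by
    have := hσ (b i)
    rwa [hμb, b.norm_eq_one, one_pow, mul_one] at this
  have htr : LinearMap.trace ℝ E A = ∑ i, μ i := by
    rw [A.trace_eq_sum_inner b]
    exact Finset.sum_congr rfl fun i _ => by rw [real_inner_comm, hμb]
  have hQ : ∀ x : Fin (Module.finrank ℝ E) → ℝ,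
      ⟪A (∑ i, x i • b i), ∑ i, x i • b i⟫ = ∑ i, μ i * x i ^ 2 := by
    intro x
    simp only [map_sum, map_smul, hAb, smul_smul]
    rw [b.orthonormal.inner_sum]
    exact Finset.sum_congr rfl fun i _ => by simp; ring
  have hcont : Continuous fun x => ⟪A x, x⟫ :=
    A.continuous_of_finiteDimensional.inner continuous_id
  have hSm : MeasurableSet {x | 2 * LinearMap.trace ℝ E A + 4 * s * σ < ⟪A x, x⟫} :=
    measurableSet_lt measurable_const hcont.measurable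
  have hm : Measurable fun x : Fin (Module.finrank ℝ E) → ℝ => ∑ i, x i • b i := by fun_prop
  rw [stdGaussian_eq_map_pi_orthonormalBasis b, Measure.map_apply hm hSm]
  change gpi (Module.finrank ℝ E) _ ≤ _
  have hS : (fun x : Fin (Module.finrank ℝ E) → ℝ => ∑ i, x i • b i) ⁻¹'
      {x | 2 * LinearMap.trace ℝ E A + 4 * s * σ < ⟪A x, x⟫}
      ⊆ {x | ENNReal.ofReal (Real.exp ((∑ i, μ i) / (2 * σ) + s))
          ≤ ENNReal.ofReal (Real.exp (∑ i, μ i / (4 * σ) * x i ^ 2))} := by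
    intro x hx
    simp only [mem_preimage, mem_ofPred_eq, hQ, htr] at hx ⊢
    refine ENNReal.ofReal_le_ofReal (Real.exp_le_exp.2 ?_)
    have : ∑ i, μ i / (4 * σ) * x i ^ 2 = (∑ i, μ i * x i ^ 2) / (4 * σ) := by
      rw [Finset.sum_div]; exact Finset.sum_congr rfl fun i _ => by ring
    rw [this, le_div_iff₀ (by positivity), add_mul, div_mul_eq_mul_div,
      show (∑ i, μ i) * (4 * σ) / (2 * σ) = 2 * ∑ i, μ i by field_simp; ring]
    linarith
  refine (measure_mono hS).trans ?_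
  have hbound := lintegral_exp_quad (fun i => μ i / (4 * σ))
    (fun i => div_nonneg (hμ0 i) (by positivity)) (fun i => by
      rw [div_le_iff₀ (by positivity)]; linarith [hμσ i])
  refine (meas_ge_le_lintegral_div (Measurable.aemeasurable (by fun_prop)) ?_ ENNReal.ofReal_ne_top).trans ?_
  · simp [Real.exp_pos]
  refine ENNReal.div_le_of_le_mul (hbound.trans (le_of_eq ?_))
  rw [← ENNReal.ofReal_mul (Real.exp_pos _).le, ← Real.exp_add]
  congr 2
  rw [← Finset.sum_div]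
  field_simp
  ring

/-- The operator `x ↦ ∑ ⟪w i, x⟫ • w i`. -/
noncomputable def frame (s : Finset κ) (w : κ → E) : E →ₗ[ℝ] E :=
  ∑ i ∈ s, (innerₛₗ ℝ (w i)).smulRight (w i)

lemma inner_frame (s : Finset κ) (w : κ → E) (x y : E) :
    ⟪frame s w x, y⟫ = ∑ i ∈ s, ⟪w i, x⟫ * ⟪w i, y⟫ := by
  simp [frame, sum_inner, real_inner_smul_left]

lemma trace_frame (s : Finset κ) (w : κ → E) :
    LinearMap.trace ℝ E (frame s w) = ∑ i ∈ s, ‖w i‖ ^ 2 := by
  set b := stdOrthonormalBasis ℝ E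
  have h1 : ∀ j, ⟪b j, frame s w (b j)⟫ = ∑ i ∈ s, ⟪w i, b j⟫ ^ 2 := fun j => by
    rw [real_inner_comm, inner_frame]
    exact Finset.sum_congr rfl fun i _ => (sq _).symm
  rw [(frame s w).trace_eq_sum_inner b, Finset.sum_congr rfl fun j _ => h1 j, Finset.sum_comm]
  exact Finset.sum_congr rfl fun i _ => b.sum_sq_inner_left (w i)

/-- **Ellipsoid tail.** `∑ ⟪x, w i⟫²` exceeds twice its mean by `4 s σ` with probability at most
`exp (-s)`, where `σ` bounds the quadratic form on the unit sphere. -/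
theorem ellipsoid_tail (t : Finset κ) (w : κ → E) {σ : ℝ} (hσ0 : 0 < σ)
    (hσ : ∀ x, ∑ i ∈ t, ⟪x, w i⟫ ^ 2 ≤ σ * ‖x‖ ^ 2) (s : ℝ) :
    stdGaussian E {x | 2 * (∑ i ∈ t, ‖w i‖ ^ 2) + 4 * s * σ < ∑ i ∈ t, ⟪x, w i⟫ ^ 2}
      ≤ ENNReal.ofReal (Real.exp (-s)) := by
  have hQ : ∀ x, ⟪frame t w x, x⟫ = ∑ i ∈ t, ⟪x, w i⟫ ^ 2 := fun x => by
    rw [inner_frame]
    exact Finset.sum_congr rfl fun i _ => by rw [real_inner_comm x (w i), sq]
  have := quad_tail (frame t w) (fun x y => by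
      rw [inner_frame, real_inner_comm, inner_frame]
      exact Finset.sum_congr rfl fun i _ => mul_comm _ _)
    (fun x => by rw [hQ]; positivity) hσ0 (fun x => by rw [hQ]; exact hσ x) s
  simpa only [trace_frame, hQ] using this

/-- Weighted ellipsoid in an orthonormal family. -/
theorem weighted_tail (t : Finset κ) {e : κ → E} (he : Orthonormal ℝ e) (l : κ → ℝ)
    (hl : ∀ i ∈ t, 0 ≤ l i) {σ : ℝ} (hσ0 : 0 < σ) (hσ : ∀ i ∈ t, l i ≤ σ) (s : ℝ) :
    stdGaussian E {x | 2 * (∑ i ∈ t, l i) + 4 * s * σ < ∑ i ∈ t, l i * ⟪x, e i⟫ ^ 2}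
      ≤ ENNReal.ofReal (Real.exp (-s)) := by
  have hsq : ∀ i ∈ t, ∀ x, ⟪x, Real.sqrt (l i) • e i⟫ ^ 2 = l i * ⟪x, e i⟫ ^ 2 := fun i hi x => by
    rw [real_inner_smul_right, mul_pow, Real.sq_sqrt (hl i hi)]
  have htr : ∑ i ∈ t, ‖Real.sqrt (l i) • e i‖ ^ 2 = ∑ i ∈ t, l i :=
    Finset.sum_congr rfl fun i hi => by
      rw [norm_smul, he.1 i, mul_one, Real.norm_eq_abs, sq_abs, Real.sq_sqrt (hl i hi)]
  have := ellipsoid_tail t (fun i => Real.sqrt (l i) • e i) hσ0 (fun x => by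
    calc ∑ i ∈ t, ⟪x, Real.sqrt (l i) • e i⟫ ^ 2 ≤ ∑ i ∈ t, σ * ⟪x, e i⟫ ^ 2 :=
          Finset.sum_le_sum fun i hi => by
            rw [hsq i hi]; exact mul_le_mul_of_nonneg_right (hσ i hi) (sq_nonneg _)
      _ ≤ σ * ‖x‖ ^ 2 := by
          rw [← Finset.mul_sum]
          refine mul_le_mul_of_nonneg_left ?_ hσ0.le
          simpa [real_inner_comm x, sq_abs] using he.sum_inner_products_le x (s := t)) s
  rw [htr] at this
  refine (measure_mono fun x hx => ?_).trans this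
  simp only [mem_ofPred_eq] at hx ⊢
  rwa [Finset.sum_congr rfl fun i hi => hsq i hi x]

/-- **Slab tail.** -/
theorem slab_tail (v : E) {s : ℝ} (hs : 0 ≤ s) :
    stdGaussian E {x | s * ‖v‖ < |⟪x, v⟫|} ≤ ENNReal.ofReal (2 * Real.exp (-s ^ 2 / 2)) := by
  rcases eq_or_ne v 0 with rfl | hv
  · simp
  have key : ∀ w : E, ‖w‖ = ‖v‖ →
      (stdGaussian E).real {x | s * ‖v‖ ≤ ⟪w, x⟫} ≤ Real.exp (-s ^ 2 / 2) := by
    intro w hw
    have hmap : (stdGaussian E).map (fun x => ⟪w, x⟫) = gaussianReal 0 (‖w‖ ^ 2).toNNReal := by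
      have h := IsGaussian.map_eq_gaussianReal (μ := stdGaussian E) (innerSL ℝ w)
      rw [integral_strongDual_stdGaussian, variance_dual_stdGaussian, innerSL_apply_norm] at h
      exact h
    have ht : 0 ≤ s / ‖v‖ := div_nonneg hs (norm_nonneg v)
    have hint : Integrable (fun x => Real.exp (s / ‖v‖ * ⟪w, x⟫)) (stdGaussian E) := by
      have h := integrable_exp_mul_gaussianReal (μ := 0) (v := (‖w‖ ^ 2).toNNReal) (s / ‖v‖)
      rw [← hmap, integrable_map_measure (by fun_prop) (by fun_prop)] at h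
      exact h
    refine (measure_ge_le_exp_mul_mgf (s * ‖v‖) ht hint).trans (le_of_eq ?_)
    rw [mgf_gaussianReal hmap, ← Real.exp_add, Real.coe_toNNReal _ (sq_nonneg _), hw]
    congr 1
    have := norm_ne_zero_iff.2 hv
    field_simp
    ring
  have hsub : {x | s * ‖v‖ < |⟪x, v⟫|} ⊆ {x | s * ‖v‖ ≤ ⟪v, x⟫} ∪ {x | s * ‖v‖ ≤ ⟪-v, x⟫} := by
    intro x hx
    simp only [mem_ofPred_eq, mem_union, inner_neg_left, real_inner_comm x v] at hx ⊢
    rcases lt_abs.1 hx with h | h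
    exacts [Or.inl h.le, Or.inr h.le]
  refine (measure_mono hsub).trans ((measure_union_le _ _).trans ?_)
  rw [two_mul, ENNReal.ofReal_add (Real.exp_pos _).le (Real.exp_pos _).le]
  refine add_le_add ?_ ?_ <;> rw [← ofReal_measureReal (measure_ne_top _ _)]
  · exact ENNReal.ofReal_le_ofReal (key v rfl)
  · exact ENNReal.ofReal_le_ofReal (key (-v) (norm_neg v))

lemma geom : ∀ n : ℕ, ∑ k ∈ Finset.Icc 1 n, (1 / 2 : ℝ) ^ k = 1 - (1 / 2) ^ n
  | 0 => by simp
  | n + 1 => by rw [Finset.sum_Icc_succ_top (by omega), geom n, pow_succ]; ring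

/-- The ball family: first `k` coordinates of an orthonormal sequence have squared norm at most
`6 k + 4 s`, simultaneously for all `k`. -/
theorem nested_tail {n : ℕ} {e : Fin n → E} (he : Orthonormal ℝ e) (s : ℝ) :
    stdGaussian E {x | ∃ k, k ≤ n ∧ 0 < k ∧
        6 * k + 4 * s < ∑ i ∈ Finset.univ.filter (fun i : Fin n => (i : ℕ) < k), ⟪x, e i⟫ ^ 2}
      ≤ ENNReal.ofReal (Real.exp (-s)) := by
  set B : ℕ → Set E := fun k =>
    {x | 6 * k + 4 * s < ∑ i ∈ Finset.univ.filter (fun i : Fin n => (i : ℕ) < k), ⟪x, e i⟫ ^ 2}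
  have hsub : {x | ∃ k, k ≤ n ∧ 0 < k ∧
        6 * k + 4 * s < ∑ i ∈ Finset.univ.filter (fun i : Fin n => (i : ℕ) < k), ⟪x, e i⟫ ^ 2}
      ⊆ ⋃ k ∈ Finset.Icc 1 n, B k := by
    rintro x ⟨k, hk, hk0, hx⟩
    exact mem_biUnion (Finset.mem_Icc.2 ⟨hk0, hk⟩) hx
  have hB : ∀ k : ℕ, stdGaussian E (B k) ≤ ENNReal.ofReal (Real.exp (-s) * Real.exp (-1) ^ k) := by
    intro k
    set t := Finset.univ.filter (fun i : Fin n => (i : ℕ) < k)
    have hc : (t.card : ℝ) ≤ k := by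
      have : t.card ≤ k := by
        calc t.card ≤ (Finset.range k).card :=
              Finset.card_le_card_of_injOn Fin.val (fun i hi => by simpa [t] using hi)
                Fin.val_injective.injOn
          _ = k := Finset.card_range k
      exact_mod_cast this
    have := weighted_tail t he (fun _ => 1) (fun i _ => zero_le_one) one_pos (fun i _ => le_rfl)
      (s + k)
    rw [← Real.exp_nat_mul, ← Real.exp_add]
    rw [show -(s + k) = -s + k * -1 by ring] at this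
    refine (measure_mono fun x hx => ?_).trans this
    simp only [B, mem_ofPred_eq] at hx
    simp only [mem_ofPred_eq, Finset.sum_const, nsmul_eq_mul, mul_one, one_mul]
    linarith
  refine ((measure_mono hsub).trans (measure_biUnion_finset_le _ _)).trans ?_
  refine (Finset.sum_le_sum fun k _ => hB k).trans ?_
  rw [← ENNReal.ofReal_sum_of_nonneg fun k _ => by positivity, ← Finset.mul_sum]
  refine ENNReal.ofReal_le_ofReal (mul_le_of_le_one_right (Real.exp_pos _).le ?_)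
  have hr : Real.exp (-1) ≤ 1 / 2 := by
    rw [Real.exp_neg, one_div]
    exact inv_anti₀ two_pos (by linarith [Real.exp_one_gt_d9])
  calc ∑ k ∈ Finset.Icc 1 n, Real.exp (-1) ^ k ≤ ∑ k ∈ Finset.Icc 1 n, (1 / 2 : ℝ) ^ k :=
        Finset.sum_le_sum fun k _ => pow_le_pow_left₀ (Real.exp_pos _).le hr k
    _ = 1 - (1 / 2) ^ n := geom n
    _ ≤ 1 := sub_le_self _ (by positivity)

/-- Ellipsoids are convex. -/
lemma convex_ellipsoid (t : Finset κ) (w : κ → E) (r : ℝ) :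
    Convex ℝ {x : E | ∑ i ∈ t, ⟪x, w i⟫ ^ 2 ≤ r} := by
  intro x hx y hy a b ha hb hab
  simp only [mem_ofPred_eq, inner_add_left, real_inner_smul_left] at hx hy ⊢
  calc ∑ i ∈ t, (a * ⟪x, w i⟫ + b * ⟪y, w i⟫) ^ 2
      ≤ ∑ i ∈ t, (a * ⟪x, w i⟫ ^ 2 + b * ⟪y, w i⟫ ^ 2) := Finset.sum_le_sum fun i _ => by
        nlinarith [mul_nonneg (mul_nonneg ha hb) (sq_nonneg (⟪x, w i⟫ - ⟪y, w i⟫))]
    _ = a * ∑ i ∈ t, ⟪x, w i⟫ ^ 2 + b * ∑ i ∈ t, ⟪y, w i⟫ ^ 2 := by
        rw [Finset.sum_add_distrib, Finset.mul_sum, Finset.mul_sum]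
    _ ≤ a * r + b * r := add_le_add (mul_le_mul_of_nonneg_left hx ha)
        (mul_le_mul_of_nonneg_left hy hb)
    _ = r := by rw [← add_mul, hab, one_mul]

lemma isClosed_ellipsoid (t : Finset κ) (w : κ → E) (r : ℝ) :
    IsClosed {x : E | ∑ i ∈ t, ⟪x, w i⟫ ^ 2 ≤ r} :=
  isClosed_le (by fun_prop) continuous_const

lemma neg_mem_ellipsoid (t : Finset κ) (w : κ → E) (r : ℝ) :
    ∀ x ∈ {x : E | ∑ i ∈ t, ⟪x, w i⟫ ^ 2 ≤ r}, -x ∈ {x : E | ∑ i ∈ t, ⟪x, w i⟫ ^ 2 ≤ r} := by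
  intro x hx
  simpa [inner_neg_left] using hx

/-- Slabs are convex. -/
lemma convex_slab (v : E) (r : ℝ) : Convex ℝ {x : E | |⟪x, v⟫| ≤ r} := by
  intro x hx y hy a b ha hb hab
  simp only [mem_ofPred_eq, inner_add_left, real_inner_smul_left, abs_le] at hx hy ⊢
  constructor <;>
    nlinarith [mul_le_mul_of_nonneg_left hx.1 ha, mul_le_mul_of_nonneg_left hx.2 ha,
      mul_le_mul_of_nonneg_left hy.1 hb, mul_le_mul_of_nonneg_left hy.2 hb]

lemma isClosed_slab (v : E) (r : ℝ) : IsClosed {x : E | |⟪x, v⟫| ≤ r} :=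
  isClosed_le (by fun_prop) continuous_const

lemma neg_mem_slab (v : E) (r : ℝ) :
    ∀ x ∈ {x : E | |⟪x, v⟫| ≤ r}, -x ∈ {x : E | |⟪x, v⟫| ≤ r} := by
  intro x hx
  simpa [inner_neg_left] using hx

end Vale.Agent.P262.Gauss
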