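import Vale.Agent.P262.Gauss.Shift

/-!
Banaszczyk-type balancing at chosen times: small vectors and symmetric convex closed bodies of
nearly full Gaussian measure (`L1`).
-/

open MeasureTheory ProbabilityTheory Set
open scoped ENNReal

namespace Vale.Agent.P262.Gauss

variable {E : Type*} [NormedAddCommGroup E] [InnerProductSpace ℝ E] [FiniteDimensional ℝ E]
  [MeasurableSpace E] [BorelSpace E]

lemma gpi_map_neg (m : ℕ) : (gpi m).map Neg.neg = gpi m := by
  have := measurePreserving_pi (fun _ : Fin m => gaussianReal 0 1) (fun _ => gaussianReal 0 1)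
    (f := fun _ x => -x) (fun _ => ⟨measurable_neg, by rw [gaussianReal_map_neg, neg_zero]⟩)
  exact this.map_eq

/-- Coordinates in which a given nonzero vector is `(‖u‖, 0)`. -/
lemma exists_coords {u : E} (hu : u ≠ 0) :
    ∃ (m : ℕ) (L : (ℝ × (Fin m → ℝ)) ≃L[ℝ] E),
      ((gaussianReal 0 1).prod (gpi m)).map L = stdGaussian E ∧ L (‖u‖, 0) = u := by
  have : Nontrivial E := ⟨⟨u, 0, hu⟩⟩
  obtain ⟨m, hm⟩ : ∃ m, Module.finrank ℝ E = m + 1 :=
    ⟨Module.finrank ℝ E - 1, by have := Module.finrank_pos (R := ℝ) (M := E); omega⟩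
  set e : E := ‖u‖⁻¹ • u
  have he : ‖e‖ = 1 := by
    simp [e, norm_smul, norm_ne_zero_iff.2 hu]
  obtain ⟨b, hb⟩ := Orthonormal.exists_orthonormalBasis_extension_of_card_eq (𝕜 := ℝ)
    (ι := Fin (m + 1)) (by simp [hm]) (v := fun _ => e) (s := {0})
    (by
      refine ⟨fun i => by simpa using he, fun i j hij => ?_⟩
      exact absurd (Subsingleton.elim i j) hij)
  let Le : (ℝ × (Fin m → ℝ)) ≃ₗ[ℝ] E :=
    (Fin.consLinearEquiv ℝ fun _ : Fin (m + 1) => ℝ).trans b.toBasis.equivFun.symm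
  have hLe : ∀ p : ℝ × (Fin m → ℝ),
      Le p = ∑ i, (Fin.cons p.1 p.2 : Fin (m + 1) → ℝ) i • b i := by
    intro p
    simp only [Le, LinearEquiv.trans_apply, Module.Basis.equivFun_symm_apply,
      OrthonormalBasis.coe_toBasis]
    rfl
  refine ⟨m, Le.toContinuousLinearEquiv, ?_, ?_⟩
  · rw [stdGaussian_eq_map_pi_orthonormalBasis b]
    change _ = (gpi (m + 1)).map _
    rw [← map_cons_gpi m, Measure.map_map (by fun_prop)
      (by
        refine measurable_pi_lambda _ fun i => ?_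
        refine Fin.cases ?_ (fun j => ?_) i
        · simpa using measurable_fst
        · simpa [Function.comp_def] using (measurable_pi_apply j).comp measurable_snd)]
    congr 1
    funext p
    exact hLe p
  · change Le (‖u‖, 0) = u
    rw [hLe, Fin.sum_univ_succ]
    simp [hb 0 rfl, e, smul_smul, norm_ne_zero_iff.2 hu]

/-- **The shift lemma.** For a symmetric convex compact body of nearly full Gaussian measure and a
short vector `u` there is such a body inside `(K + u) ∪ (K - u)` of no smaller measure. -/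
theorem shift {K : Set E} (hKc : IsCompact K) (hK : Convex ℝ K) (hKs : ∀ x ∈ K, -x ∈ K)
    (hγ : stdGaussian E Kᶜ ≤ ENNReal.ofReal (1 / 20000000)) {u : E} (hu : ‖u‖ ≤ 1 / 40000) :
    ∃ K' : Set E, IsCompact K' ∧ Convex ℝ K' ∧ (∀ x ∈ K', -x ∈ K') ∧
      stdGaussian E K ≤ stdGaussian E K' ∧ ∀ s ∈ K', s + u ∈ K ∨ s - u ∈ K := by
  rcases eq_or_ne u 0 with rfl | hu0
  · exact ⟨K, hKc, hK, hKs, le_rfl, fun s hs => Or.inl (by simpa using hs)⟩
  obtain ⟨m, L, hL, hLu⟩ := exists_coords hu0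
  set K₀ := L ⁻¹' K with hK₀
  have hLm : Measurable L := L.continuous.measurable
  have hc : IsCompact K₀ := L.toHomeomorph.isCompact_preimage.2 hKc
  have hcv : Convex ℝ K₀ := hK.linear_preimage L.toLinearEquiv.toLinearMap
  have hs : ∀ p ∈ K₀, -p ∈ K₀ := fun p hp => by
    simp only [hK₀, mem_preimage, map_neg] at hp ⊢
    exact hKs _ hp
  have hm : ∀ {S : Set E}, MeasurableSet S →
      stdGaussian E S = ((gaussianReal 0 1).prod (gpi m)) (L ⁻¹' S) := fun {S} hS => by
    rw [← hL, Measure.map_apply hLm hS]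
  have hγ' : ((gaussianReal 0 1).prod (gpi m)) K₀ᶜ ≤ ENNReal.ofReal (1 / 20000000) := by
    rwa [hK₀, ← preimage_compl, ← hm hKc.measurableSet.compl]
  have hstar := isCompact_star hc ‖u‖
  refine ⟨L '' star K₀ ‖u‖, hstar.image L.continuous,
    (convex_star hcv _).linear_image L.toLinearEquiv.toLinearMap, ?_, ?_, ?_⟩
  · rintro _ ⟨p, hp, rfl⟩
    exact ⟨-p, neg_mem_star hs hp, map_neg L p⟩
  · rw [hm hKc.measurableSet, hm (hstar.image L.continuous).measurableSet,
      L.injective.preimage_image]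
    exact shift_prod (midLC_gpi m) (gpi_map_neg m) hc hcv hs hγ' (norm_pos_iff.2 hu0) hu
  · rintro _ ⟨p, hp, rfl⟩
    rcases star_subset hcv (norm_nonneg u) hp with h | h
    · left; simpa [hK₀, map_add, hLu] using h
    · right; simpa [hK₀, map_sub, hLu] using h

lemma exists_large_ball {η : ℝ≥0∞} (hη : 0 < η) :
    ∃ r : ℝ, stdGaussian E (Metric.closedBall 0 r)ᶜ ≤ η := by
  obtain ⟨S, -, hS, hSη⟩ := (MeasurableSet.univ (α := E)).exists_isCompact_sdiff_lt
    (μ := stdGaussian E) (measure_ne_top _ _) hη.ne'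
  obtain ⟨r, hr⟩ := hS.isBounded.subset_closedBall 0
  have hsub : (Metric.closedBall (0 : E) r)ᶜ ⊆ univ \ S := fun x hx =>
    ⟨trivial, fun h => hx (hr h)⟩
  exact ⟨r, (measure_mono hsub).trans hSη.le⟩

/-- **L1 (balancing at chosen times).** Short vectors can be signed so that every partial sum
lies in its body, provided the bodies miss very little Gaussian mass in total. -/
theorem balance {N : ℕ} (u : ℕ → E) (hu : ∀ i < N, ‖u i‖ ≤ 1 / 40000) (K : ℕ → Set E)
    (hKc : ∀ t ≤ N, IsClosed (K t)) (hK : ∀ t ≤ N, Convex ℝ (K t))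
    (hKs : ∀ t ≤ N, ∀ x ∈ K t, -x ∈ K t)
    (hloss : ∑ t ∈ Finset.range (N + 1), stdGaussian E (K t)ᶜ
      ≤ ENNReal.ofReal (1 / 40000000)) :
    ∃ ε : ℕ → ℝ, (∀ i, ε i = 1 ∨ ε i = -1) ∧
      ∀ t ≤ N, (∑ i ∈ Finset.range t, ε i • u i) ∈ K t := by
  set γ := stdGaussian E with hγdef
  set η : ℝ≥0∞ := ENNReal.ofReal (1 / 40000000) with hηdef
  obtain ⟨r, hr⟩ := exists_large_ball (E := E) (η := η) (by simp [hηdef])
  have step : ∀ j, j ≤ N → ∃ B : Set E, IsCompact B ∧ Convex ℝ B ∧ (∀ x ∈ B, -x ∈ B) ∧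
      γ Bᶜ ≤ η + ∑ t ∈ Finset.Ico j (N + 1), γ (K t)ᶜ ∧
      ∀ s ∈ B, ∃ ε : ℕ → ℝ, (∀ i, ε i = 1 ∨ ε i = -1) ∧
        ∀ t ≤ N, j ≤ t → s + ∑ i ∈ Finset.Ico j t, ε i • u i ∈ K t := by
    intro j hj
    induction hj using Nat.decreasingInduction with
    | self =>
      refine ⟨Metric.closedBall 0 r ∩ K N, (isCompact_closedBall 0 r).inter_right (hKc N le_rfl),
        (convex_closedBall 0 r).inter (hK N le_rfl), fun x hx => ⟨by simpa using hx.1,
        hKs N le_rfl x hx.2⟩, ?_, fun s hs => ⟨fun _ => 1, fun i => Or.inl rfl, fun t ht hNt => ?_⟩⟩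
      · rw [compl_inter, Nat.Ico_succ_singleton, Finset.sum_singleton]
        exact (measure_union_le _ _).trans (add_le_add hr le_rfl)
      · obtain rfl : t = N := le_antisymm ht hNt
        simpa using hs.2
    | of_succ j hjN ih =>
      obtain ⟨B, hBc, hBv, hBs, hBγ, hB⟩ := ih
      have hsum : ∑ t ∈ Finset.Ico (j + 1) (N + 1), γ (K t)ᶜ ≤ η :=
        (Finset.sum_le_sum_of_subset fun t ht => by
          simp only [Finset.mem_Ico, Finset.mem_range] at ht ⊢; omega).trans hloss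
      have hB' : γ Bᶜ ≤ ENNReal.ofReal (1 / 20000000) := by
        refine (hBγ.trans (add_le_add le_rfl hsum)).trans ?_
        rw [hηdef, ← ENNReal.ofReal_add (by norm_num) (by norm_num)]
        norm_num
      obtain ⟨B', hB'c, hB'v, hB's, hB'γ, hB'sub⟩ := shift hBc hBv hBs hB' (hu j hjN)
      refine ⟨B' ∩ K j, hB'c.inter_right (hKc j hjN.le), hB'v.inter (hK j hjN.le),
        fun x hx => ⟨hB's x hx.1, hKs j hjN.le x hx.2⟩, ?_, fun s hs => ?_⟩
      · have hB'2 : γ B'ᶜ ≤ γ Bᶜ := by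
          rw [measure_compl hB'c.measurableSet (measure_ne_top _ _),
            measure_compl hBc.measurableSet (measure_ne_top _ _)]
          exact tsub_le_tsub_left hB'γ _
        rw [compl_inter, Finset.sum_eq_sum_Ico_succ_bot (by omega : j < N + 1), ← add_assoc,
          add_comm η, add_assoc, add_comm (γ (K j)ᶜ)]
        exact (measure_union_le _ _).trans (add_le_add (hB'2.trans hBγ) le_rfl)
      · obtain ⟨σ, hσ, hσB⟩ : ∃ σ : ℝ, (σ = 1 ∨ σ = -1) ∧ s + σ • u j ∈ B := by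
          rcases hB'sub s hs.1 with h | h
          · exact ⟨1, Or.inl rfl, by simpa using h⟩
          · exact ⟨-1, Or.inr rfl, by simpa [← sub_eq_add_neg] using h⟩
        obtain ⟨ε, hε, hεK⟩ := hB _ hσB
        refine ⟨Function.update ε j σ, fun i => ?_, fun t ht hjt => ?_⟩
        · rcases eq_or_ne i j with rfl | hij
          · simpa using hσ
          · simpa [hij] using hε i
        · rcases eq_or_lt_of_le hjt with rfl | hlt
          · simpa using hs.2
          · rw [Finset.sum_eq_sum_Ico_succ_bot hlt, Function.update_self, ← add_assoc]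
            convert hεK t ht hlt using 2
            refine Finset.sum_congr rfl fun i hi => ?_
            rw [Function.update_of_ne (by simp only [Finset.mem_Ico] at hi; omega)]
  obtain ⟨B, hBc, hBv, hBs, hBγ, hB⟩ := step 0 (Nat.zero_le N)
  obtain ⟨s, hs⟩ : B.Nonempty := by
    by_contra h
    rw [Set.not_nonempty_iff_eq_empty.1 h, compl_empty, measure_univ] at hBγ
    have : (1 : ℝ≥0∞) ≤ η + η := hBγ.trans (add_le_add le_rfl (by rwa [← Finset.range_eq_Ico]))
    rw [hηdef, ← ENNReal.ofReal_add (by norm_num) (by norm_num), ENNReal.one_le_ofReal] at this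
    norm_num at this
  have h0 : (0 : E) ∈ B := by
    have := hBv hs (hBs s hs) (by norm_num : (0 : ℝ) ≤ 2⁻¹) (by norm_num : (0 : ℝ) ≤ 2⁻¹)
      (by norm_num)
    simpa using this
  obtain ⟨ε, hε, hεK⟩ := hB 0 h0
  refine ⟨ε, hε, fun t ht => ?_⟩
  have h1 := hεK t ht (Nat.zero_le t)
  rw [zero_add, ← Finset.range_eq_Ico] at h1
  exact h1

/-- `L1` for vectors of norm at most one: partial sums lie in `40000 • K t`. -/
theorem balance_unit {N : ℕ} (u : ℕ → E) (hu : ∀ i < N, ‖u i‖ ≤ 1) (K : ℕ → Set E)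
    (hKc : ∀ t ≤ N, IsClosed (K t)) (hK : ∀ t ≤ N, Convex ℝ (K t))
    (hKs : ∀ t ≤ N, ∀ x ∈ K t, -x ∈ K t)
    (hloss : ∑ t ∈ Finset.range (N + 1), stdGaussian E (K t)ᶜ
      ≤ ENNReal.ofReal (1 / 40000000)) :
    ∃ ε : ℕ → ℝ, (∀ i, ε i = 1 ∨ ε i = -1) ∧
      ∀ t ≤ N, (40000 : ℝ)⁻¹ • (∑ i ∈ Finset.range t, ε i • u i) ∈ K t := by
  obtain ⟨ε, hε, h⟩ := balance (fun i => (40000 : ℝ)⁻¹ • u i) (fun i hi => by
    rw [norm_smul, Real.norm_of_nonneg (by norm_num : (0 : ℝ) ≤ (40000 : ℝ)⁻¹)]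
    linarith [hu i hi]) K hKc hK hKs hloss
  refine ⟨ε, hε, fun t ht => ?_⟩
  rw [Finset.smul_sum]
  rw [Finset.sum_congr rfl fun i _ => smul_comm (40000 : ℝ)⁻¹ (ε i) (u i)]
  exact h t ht

end Vale.Agent.P262.Gauss
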