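import Vale.Agent.P262.Gauss.Balance

/-!
Consequences of `L1`: signing along a flag of subsets, rounding of fractional points (`L3`) and
balanced ordered partitions into `2 ^ w` windows (`L2`).
-/

open MeasureTheory ProbabilityTheory Set
open scoped ENNReal

namespace Vale.Agent.P262.Gauss

variable {E : Type*} [NormedAddCommGroup E] [InnerProductSpace ℝ E] [FiniteDimensional ℝ E]
  [MeasurableSpace E] [BorelSpace E] {ι : Type*}

lemma zero_mem_body {K : Set E} (hK : Convex ℝ K) (hKs : ∀ x ∈ K, -x ∈ K)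
    (hloss : stdGaussian E Kᶜ ≤ ENNReal.ofReal (1 / 40000000)) : (0 : E) ∈ K := by
  obtain ⟨s, hs⟩ : K.Nonempty := by
    by_contra h
    rw [Set.not_nonempty_iff_eq_empty.1 h, compl_empty, measure_univ, ENNReal.one_le_ofReal] at hloss
    norm_num at hloss
  have := hK hs (hKs s hs) (by norm_num : (0 : ℝ) ≤ 2⁻¹) (by norm_num : (0 : ℝ) ≤ 2⁻¹) (by norm_num)
  simpa using this

lemma card_lt_of_monotone {N : ℕ} {h : Fin N → ℕ} (hh : Monotone h) (j : ℕ) (i : Fin N) :
    h i < j ↔ (i : ℕ) < (Finset.univ.filter fun l => h l < j).card := by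
  constructor
  · intro hi
    have hsub : Finset.Iic i ⊆ Finset.univ.filter fun l => h l < j := fun l hl => by
      simpa using lt_of_le_of_lt (hh (Finset.mem_Iic.1 hl)) hi
    have := Finset.card_le_card hsub
    rw [Fin.card_Iic] at this
    omega
  · intro hi
    by_contra hij
    have hsub : (Finset.univ.filter fun l => h l < j) ⊆ Finset.Iio i := fun l hl => by
      simp only [Finset.mem_filter, Finset.mem_univ, true_and] at hl
      refine Finset.mem_Iio.2 (lt_of_not_ge fun hle => ?_)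
      exact hij (lt_of_le_of_lt (hh hle) hl)
    have := Finset.card_le_card hsub
    rw [Fin.card_Iio] at this
    omega

/-- Signing along a flag: the items of level `< j` have signed sum in `K j`. -/
theorem balance_flag (s : Finset ι) (v : ι → E) (hv : ∀ i ∈ s, ‖v i‖ ≤ 1) (g : ι → ℕ) (m : ℕ)
    (K : ℕ → Set E) (hKc : ∀ j ≤ m, IsClosed (K j)) (hK : ∀ j ≤ m, Convex ℝ (K j))
    (hKs : ∀ j ≤ m, ∀ x ∈ K j, -x ∈ K j)
    (hloss : ∑ j ∈ Finset.range (m + 1), stdGaussian E (K j)ᶜ
      ≤ ENNReal.ofReal (1 / 40000000)) :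
    ∃ ε : ι → ℝ, (∀ i, ε i = 1 ∨ ε i = -1) ∧
      ∀ j ≤ m, (40000 : ℝ)⁻¹ • (∑ i ∈ s with g i < j, ε i • v i) ∈ K j := by
  classical
  obtain ⟨N, e0, -⟩ : ∃ N, ∃ _ : Fin N ≃ s, True := ⟨s.card, s.equivFin.symm, trivial⟩
  set e : Fin N ≃ s := (Tuple.sort fun l => g (e0 l)).trans e0 with he
  have hmono : Monotone fun l => g (e l) := fun a b hab => by
    rw [he]
    exact Tuple.monotone_sort (fun l => g (e0 l)) hab
  set u : ℕ → E := fun n => if h : n < N then v (e ⟨n, h⟩) else 0
  set τ : ℕ → ℕ := fun j => (Finset.univ.filter fun l : Fin N => g (e l) < j).card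
  have hτ : ∀ j, τ j ≤ N := fun j => (Finset.card_filter_le _ _).trans (by simp)
  set K' : ℕ → Set E := fun t => ⋂ j ∈ (Finset.range (m + 1)).filter (fun j => τ j = t), K j
  have hJ : ∀ {t j}, j ∈ (Finset.range (m + 1)).filter (fun j => τ j = t) → j ≤ m := fun h => by
    simp only [Finset.mem_filter, Finset.mem_range] at h; omega
  obtain ⟨ε, hε, hεK⟩ := balance_unit (N := N) u
    (fun n hn => by simpa [u, hn] using hv _ (e ⟨n, hn⟩).2) K'
    (fun t _ => isClosed_biInter fun j hj => hKc j (hJ hj))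
    (fun t _ => convex_iInter₂ fun j hj => hK j (hJ hj))
    (fun t _ x hx => by
      simp only [K', mem_iInter₂] at hx ⊢
      exact fun j hj => hKs j (hJ hj) x (hx j hj))
    (by
      refine le_trans ?_ hloss
      refine le_trans (Finset.sum_le_sum fun t _ => ?_)
        (Finset.sum_fiberwise_of_maps_to (g := τ) (t := Finset.range (N + 1))
          (fun j _ => Finset.mem_range.2 (Nat.lt_succ_of_le (hτ j)))
          (fun j => stdGaussian E (K j)ᶜ)).le
      simp only [K', compl_iInter]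
      exact measure_biUnion_finset_le _ _)
  refine ⟨fun i => if h : i ∈ s then ε (e.symm ⟨i, h⟩) else 1, fun i => ?_, fun j hj => ?_⟩
  · by_cases h : i ∈ s
    · simpa [h] using hε _
    · simp [h]
  have h1 : (40000 : ℝ)⁻¹ • (∑ n ∈ Finset.range (τ j), ε n • u n) ∈ K j := by
    have := hεK (τ j) (hτ j)
    simp only [K', mem_iInter₂] at this
    exact this j (by simp; omega)
  convert h1 using 2
  refine Finset.sum_bij' (fun i hi => ((e.symm ⟨i, (Finset.mem_filter.1 hi).1⟩ : Fin N) : ℕ))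
    (fun n hn => ((e ⟨n, lt_of_lt_of_le (Finset.mem_range.1 hn) (hτ j)⟩ : s) : ι)) ?_ ?_ ?_ ?_ ?_
  · intro i hi
    refine Finset.mem_range.2 ((card_lt_of_monotone hmono j _).1 ?_)
    simpa using (Finset.mem_filter.1 hi).2
  · intro n hn
    refine Finset.mem_filter.2 ⟨Subtype.coe_prop _, ?_⟩
    exact (card_lt_of_monotone hmono j _).2 (Finset.mem_range.1 hn)
  · intro i hi; simp
  · intro n hn; simp
  · intro i hi
    have hs := (Finset.mem_filter.1 hi).1
    simp [u, hs]

/-- **L3, dyadic points.** -/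
lemma round_dyadic (s : Finset ι) (v : ι → E) (hv : ∀ i ∈ s, ‖v i‖ ≤ 1) (g : ι → ℕ) (m : ℕ)
    (K : ℕ → Set E) (hKc : ∀ j ≤ m, IsClosed (K j)) (hK : ∀ j ≤ m, Convex ℝ (K j))
    (hKs : ∀ j ≤ m, ∀ x ∈ K j, -x ∈ K j)
    (hloss : ∑ j ∈ Finset.range (m + 1), stdGaussian E (K j)ᶜ
      ≤ ENNReal.ofReal (1 / 40000000)) (k : ℕ) :
    ∀ b : ι → ℕ, (∀ i, b i ≤ 2 ^ k) →
    ∃ r : ι → Bool, ∀ j ≤ m, ∃ p ∈ K j, (40000 : ℝ)⁻¹ • (∑ i ∈ s with g i < j,
        ((if r i then (1 : ℝ) else 0) - (b i : ℝ) / 2 ^ k) • v i) = (1 - (1 / 2) ^ k : ℝ) • p := by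
  induction k with
  | zero =>
    intro b hb
    refine ⟨fun i => decide (b i = 1), fun j hj => ⟨0, zero_mem_body (hK j hj) (hKs j hj)
      ((Finset.single_le_sum (f := fun j => stdGaussian E (K j)ᶜ) (fun i _ => zero_le)
        (Finset.mem_range.2 (Nat.lt_succ_of_le hj))).trans hloss), ?_⟩⟩
    have : ∀ i, ((if decide (b i = 1) then (1 : ℝ) else 0) - (b i : ℝ) / 2 ^ 0) • v i = 0 := by
      intro i
      rcases Nat.le_one_iff_eq_zero_or_eq_one.1 (by simpa using hb i) with h | h <;> simp [h]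
    rw [Finset.sum_eq_zero fun i _ => this i]
    simp
  | succ k ih =>
    intro b hb
    classical
    set odd : ι → Prop := fun i => b i % 2 = 1
    obtain ⟨ε, hε, hεK⟩ := balance_flag s (fun i => if odd i then v i else 0)
      (fun i hi => by split_ifs <;> simp [hv i hi]) g m K hKc hK hKs hloss
    set b' : ι → ℕ := fun i => if odd i ∧ ε i = 1 then (b i + 1) / 2 else b i / 2 with hb'
    have hb'le : ∀ i, b' i ≤ 2 ^ k := by
      intro i
      have h2 := hb i
      rw [pow_succ] at h2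
      simp only [hb']
      split_ifs <;> omega
    have hval : ∀ i, ((b' i : ℕ) : ℝ) / 2 ^ k - (b i : ℝ) / 2 ^ (k + 1)
        = (if odd i then ε i else 0) / 2 ^ (k + 1) := by
      intro i
      by_cases ho : odd i
      · rcases hε i with h | h
        · have he : 2 * b' i = b i + 1 := by simp only [hb', ho, h, and_self, if_true]; simp only [odd] at ho; omega
          have he' : 2 * (b' i : ℝ) = b i + 1 := by exact_mod_cast he
          rw [if_pos ho, h, pow_succ]; field_simp; linarith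
        · have hne : ¬ (ε i = 1) := by rw [h]; norm_num
          have he : 2 * b' i + 1 = b i := by simp only [hb', ho, hne, and_false, if_false]; simp only [odd] at ho; omega
          have he' : 2 * (b' i : ℝ) + 1 = b i := by exact_mod_cast he
          rw [if_pos ho, h, pow_succ]; field_simp; linarith
      · have he : 2 * b' i = b i := by simp only [hb', ho, false_and, if_false]; simp only [odd] at ho; omega
        have he' : 2 * (b' i : ℝ) = b i := by exact_mod_cast he
        rw [if_neg ho, zero_div, sub_eq_zero, pow_succ]; field_simp; linarith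
    obtain ⟨r, hr⟩ := ih b' hb'le
    refine ⟨r, fun j hj => ?_⟩
    obtain ⟨p, hp, hpe⟩ := hr j hj
    have hq := hεK j hj
    set q := (40000 : ℝ)⁻¹ • (∑ i ∈ s with g i < j, ε i • if odd i then v i else 0) with hqdef
    set c : ℝ := (1 / 2) ^ (k + 1) with hc
    have hcpos : 0 < c := by positivity
    have hc1 : c ≤ 1 / 2 := by
      rw [hc, pow_succ]
      have : ((1 : ℝ) / 2) ^ k ≤ 1 := pow_le_one₀ (by norm_num) (by norm_num)
      linarith
    refine ⟨((1 - 2 * c) / (1 - c)) • p + (c / (1 - c)) • q,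
      hK j hj hp hq (div_nonneg (by linarith) (by linarith)) (div_nonneg hcpos.le (by linarith))
        (by rw [← add_div, div_eq_one_iff_eq (by linarith)]; ring), ?_⟩
    have hsplit : (∑ i ∈ s with g i < j,
        ((if r i then (1 : ℝ) else 0) - (b i : ℝ) / 2 ^ (k + 1)) • v i)
        = (∑ i ∈ s with g i < j, ((if r i then (1 : ℝ) else 0) - (b' i : ℝ) / 2 ^ k) • v i)
          + c • ∑ i ∈ s with g i < j, ε i • if odd i then v i else 0 := by
      rw [Finset.smul_sum, ← Finset.sum_add_distrib]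
      refine Finset.sum_congr rfl fun i _ => ?_
      have hv' : c • (ε i • if odd i then v i else 0)
          = ((b' i : ℝ) / 2 ^ k - (b i : ℝ) / 2 ^ (k + 1)) • v i := by
        rw [hval i]
        by_cases ho : odd i
        · rw [if_pos ho, if_pos ho, smul_smul]
          congr 1
          rw [hc, one_div_pow]; ring
        · rw [if_neg ho, if_neg ho]; simp
      rw [hv', ← add_smul]
      congr 1
      ring
    have h2c : (1 : ℝ) - (1 / 2) ^ k = 1 - 2 * c := by rw [hc, pow_succ]; ring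
    have hne : (1 : ℝ) - c ≠ 0 := by linarith
    rw [hsplit, smul_add, hpe, h2c, hqdef, smul_add (1 - c), smul_smul (1 - c) ((1 - 2 * c) / (1 - c)),
      smul_smul (1 - c) (c / (1 - c)), mul_div_cancel₀ _ hne, mul_div_cancel₀ _ hne,
      smul_comm (40000 : ℝ)⁻¹ c]

/-- **L3 (rounding).** A fractional point can be rounded with the error in `40000 • K j` on every
set of the flag. -/
theorem round_flag (s : Finset ι) (v : ι → E) (hv : ∀ i ∈ s, ‖v i‖ ≤ 1) (g : ι → ℕ) (m : ℕ)
    (K : ℕ → Set E) (hKc : ∀ j ≤ m, IsClosed (K j)) (hK : ∀ j ≤ m, Convex ℝ (K j))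
    (hKs : ∀ j ≤ m, ∀ x ∈ K j, -x ∈ K j)
    (hloss : ∑ j ∈ Finset.range (m + 1), stdGaussian E (K j)ᶜ
      ≤ ENNReal.ofReal (1 / 40000000))
    (y : ι → ℝ) (hy : ∀ i ∈ s, y i ∈ Icc (0 : ℝ) 1) :
    ∃ r : ι → Bool, ∀ j ≤ m, (40000 : ℝ)⁻¹ • (∑ i ∈ s with g i < j,
        ((if r i then (1 : ℝ) else 0) - y i) • v i) ∈ K j := by
  classical
  set b : ℕ → ι → ℕ := fun k i => min (2 ^ k) ⌊y i * 2 ^ k⌋₊
  choose r hr using fun k => round_dyadic s v hv g m K hKc hK hKs hloss k (b k)
    fun i => min_le_left _ _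
  obtain ⟨R, hR⟩ := Finite.exists_infinite_fiber (fun k => fun i : s => r k i)
  set S := (fun k => fun i : s => r k i) ⁻¹' {R}
  have hS : S.Infinite := Set.infinite_coe_iff.1 hR
  refine ⟨fun i => if h : i ∈ s then R ⟨i, h⟩ else false, fun j hj => ?_⟩
  set φ : ℕ → ℕ := Nat.nth (· ∈ S)
  have hφ : Filter.Tendsto φ Filter.atTop Filter.atTop :=
    (Nat.nth_strictMono hS).tendsto_atTop
  have hφS : ∀ n, φ n ∈ S := fun n => Nat.nth_mem_of_infinite hS n
  have hlim : ∀ i ∈ s, Filter.Tendsto (fun k => (b k i : ℝ) / 2 ^ k) Filter.atTop (nhds (y i)) := by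
    intro i hi
    have hb : ∀ k, b k i = ⌊y i * 2 ^ k⌋₊ := fun k => min_eq_right (Nat.floor_le_of_le (by
      push_cast
      exact mul_le_of_le_one_left (by positivity) (hy i hi).2))
    simp only [hb]
    exact (tendsto_nat_floor_mul_div_atTop (hy i hi).1).comp
      (tendsto_pow_atTop_atTop_of_one_lt one_lt_two)
  have key : ∀ k, (40000 : ℝ)⁻¹ • (∑ i ∈ s with g i < j,
      ((if r k i then (1 : ℝ) else 0) - (b k i : ℝ) / 2 ^ k) • v i) ∈ K j := by
    intro k
    obtain ⟨p, hp, hpe⟩ := hr k j hj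
    rw [hpe]
    have h0 := zero_mem_body (hK j hj) (hKs j hj)
      ((Finset.single_le_sum (f := fun j => stdGaussian E (K j)ᶜ) (fun i _ => zero_le)
        (Finset.mem_range.2 (Nat.lt_succ_of_le hj))).trans hloss)
    have h1 : ((1 : ℝ) / 2) ^ k ≤ 1 := pow_le_one₀ (by norm_num) (by norm_num)
    simpa using hK j hj hp h0 (sub_nonneg.2 h1) (by positivity : (0 : ℝ) ≤ (1 / 2) ^ k) (by ring)
  refine (hKc j hj).mem_of_tendsto (b := Filter.atTop) ?_
    (Filter.Eventually.of_forall fun n => key (φ n))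
  refine (tendsto_finsetSum _ fun i hi => ?_).const_smul _
  have his := (Finset.mem_filter.1 hi).1
  have hri : ∀ n, r (φ n) i = R ⟨i, his⟩ := fun n => congrFun (hφS n) ⟨i, his⟩
  simp only [hri, his, dif_pos]
  exact (tendsto_const_nhds.sub ((hlim i his).comp hφ)).smul_const _

/-- **L2 (ordered partitions).** Items can be split into `2 ^ w` consecutive windows so that every
prefix differs from its share of the total by an element of `40000 • K`. -/
theorem ordered_partition (w : ℕ) (s : Finset ι) (v : ι → E) (hv : ∀ i ∈ s, ‖v i‖ ≤ 1)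
    (K : Set E) (hKc : IsClosed K) (hK : Convex ℝ K) (hKs : ∀ x ∈ K, -x ∈ K)
    (hloss : (2 ^ w + 1 : ℝ≥0∞) * stdGaussian E Kᶜ ≤ ENNReal.ofReal (1 / 40000000)) :
    ∃ f : ι → ℕ, (∀ i, f i < 2 ^ w) ∧ ∀ k ≤ 2 ^ w,
      (40000 : ℝ)⁻¹ • ((∑ i ∈ s with f i < k, v i) - ((k : ℝ) / 2 ^ w) • ∑ i ∈ s, v i) ∈ K := by
  classical
  have hK1 : stdGaussian E Kᶜ ≤ ENNReal.ofReal (1 / 40000000) :=
    le_trans (le_mul_of_one_le_left' (le_add_self)) hloss
  have h0 : (0 : E) ∈ K := zero_mem_body hK hKs hK1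
  induction w with
  | zero =>
    refine ⟨fun _ => 0, fun _ => by simp, fun k hk => ?_⟩
    rcases Nat.le_one_iff_eq_zero_or_eq_one.1 (by simpa using hk) with rfl | rfl <;> simpa using h0
  | succ w ih =>
    obtain ⟨f, hf, hfK⟩ := ih (le_trans (by
      gcongr
      · norm_num
      · omega) hloss)
    obtain ⟨ε, hε, hεK⟩ := balance_flag s v hv f (2 ^ w) (fun _ => K) (fun _ _ => hKc)
      (fun _ _ => hK) (fun _ _ => hKs) (by
        refine le_trans ?_ hloss
        simp only [Finset.sum_const, Finset.card_range, nsmul_eq_mul]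
        gcongr
        push_cast
        gcongr
        · norm_num
        · omega)
    set m := 2 ^ w with hm
    have hm2 : 2 ^ (w + 1) = 2 * m := by rw [pow_succ, hm]; ring
    set f' : ι → ℕ := fun i => if ε i = 1 then f i else 2 * m - 1 - f i with hf'
    refine ⟨f', fun i => by simp only [hf', hm2]; have := hf i; split_ifs <;> omega, fun k hk => ?_⟩
    set T := ∑ i ∈ s, v i
    set A : ℕ → E := fun j => ∑ i ∈ s with f i < j, v i with hA
    set S : ℕ → E := fun j => ∑ i ∈ s with f i < j, ε i • v i with hS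
    have hpm : ∀ j, (∑ i ∈ s with (f i < j ∧ ε i = 1), v i) = (2 : ℝ)⁻¹ • (A j + S j) ∧
        (∑ i ∈ s with (f i < j ∧ ε i ≠ 1), v i) = (2 : ℝ)⁻¹ • (A j - S j) := by
      intro j
      simp only [hA, hS, Finset.sum_filter]
      rw [← Finset.sum_add_distrib, ← Finset.sum_sub_distrib, Finset.smul_sum, Finset.smul_sum]
      constructor <;> refine Finset.sum_congr rfl fun i _ => ?_ <;>
        by_cases hij : f i < j <;> rcases hε i with h | h <;> simp [hij, h, ← two_smul ℝ] <;>
        norm_num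
    have comb : ∀ j ≤ m, ∀ σ : ℝ, σ = 1 ∨ σ = -1 →
        (40000 : ℝ)⁻¹ • ((2 : ℝ)⁻¹ • ((A j - ((j : ℝ) / 2 ^ w) • T) + σ • S j)) ∈ K := by
      intro j hj σ hσ
      have h1 : (40000 : ℝ)⁻¹ • (A j - ((j : ℝ) / 2 ^ w) • T) ∈ K := hfK j hj
      have h2 : σ • ((40000 : ℝ)⁻¹ • S j) ∈ K := by
        rcases hσ with rfl | rfl
        · simpa using hεK j hj
        · simpa using hKs _ (hεK j hj)
      have h3 := hK h1 h2 (by norm_num : (0 : ℝ) ≤ 2⁻¹) (by norm_num : (0 : ℝ) ≤ 2⁻¹) (by norm_num)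
      convert h3 using 1
      module
    rcases le_or_gt k m with hkm | hkm
    · have hset : (s.filter fun i => f' i < k) = s.filter fun i => f i < k ∧ ε i = 1 := by
        refine Finset.filter_congr fun i _ => ?_
        simp only [hf']
        have := hf i
        by_cases h : ε i = 1 <;> simp [h] <;> omega
      rw [hset, (hpm k).1]
      convert comb k hkm 1 (Or.inl rfl) using 2
      rw [pow_succ]
      module
    · obtain ⟨j, hj, rfl⟩ : ∃ j, j ≤ m ∧ k = 2 * m - j :=
        ⟨2 * m - k, by omega, by rw [hm2] at hk; omega⟩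
      have hset : (s.filter fun i => ¬ f' i < 2 * m - j)
          = s.filter fun i => f i < j ∧ ε i ≠ 1 := by
        refine Finset.filter_congr fun i _ => ?_
        simp only [hf']
        have := hf i
        by_cases h : ε i = 1 <;> simp [h] <;> omega
      have hsum := Finset.sum_filter_add_sum_filter_not s (fun i => f' i < 2 * m - j) v
      rw [hset, (hpm j).2] at hsum
      rw [eq_sub_of_add_eq hsum]
      have h := hKs _ (comb j hj (-1) (Or.inr rfl))
      convert h using 1
      have hcast : ((2 * m - j : ℕ) : ℝ) / 2 ^ (w + 1) = 1 - (j : ℝ) / 2 ^ (w + 1) := by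
        rw [Nat.cast_sub (by omega), hm, sub_div, pow_succ]
        push_cast
        field_simp
      rw [hcast, pow_succ]
      module

end Vale.Agent.P262.Gauss
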