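import Vale.Agent.P262.Defs
import Vale.Agent.P262.Gauss.Tools
import Vale.Agent.P262.Gauss.Tails

/-!
The rounding interface of the scheme (`WindowsProp`, `TransferProp`) from the Gaussian tools:
one lifted body carries every event of a rounding.
-/

open MeasureTheory ProbabilityTheory Set
open scoped ENNReal RealInnerProductSpace

namespace Vale.Agent.P262.Gauss

/-- Coordinates of the lifted space. -/
abbrev LiftIdx (n d : ℕ) := Fin d ⊕ (Fin d × Fin d) ⊕ Fin n

/-- The lifted space. -/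
abbrev Lift (n d : ℕ) := EuclideanSpace ℝ (LiftIdx n d)

/-- The lift of an item. -/
noncomputable def liftVec {n d : ℕ} (v : Fin n → Fin d → ℝ) (x : Fin n) : Lift n d :=
  WithLp.toLp 2 fun q => match q with
    | .inl i => v x i / 2
    | .inr (.inl p) => v x p.1 * v x p.2 / 2
    | .inr (.inr y) => if y = x then 1 / 2 else 0

/-- Coordinate vector. -/
noncomputable def crd {n d : ℕ} (q : LiftIdx n d) : Lift n d := EuclideanSpace.single q 1

/-- Vector giving `∑ x ∈ U, a x * c x`. -/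
noncomputable def coefVec {n d : ℕ} (U : Finset (Fin n)) (a : Fin n → ℝ) : Lift n d :=
  WithLp.toLp 2 fun q => match q with
    | .inl _ => 0
    | .inr (.inl _) => 0
    | .inr (.inr y) => if y ∈ U then a y else 0

variable {n d : ℕ}

lemma norm_liftVec_le {v : Fin n → Fin d → ℝ} (hv : ∀ x, ∑ i, v x i ^ 2 ≤ 1) (x : Fin n) :
    ‖liftVec v x‖ ≤ 1 := by
  rw [EuclideanSpace.norm_eq, Real.sqrt_le_one]
  simp only [Fintype.sum_sum_type, Fintype.sum_prod_type, liftVec, Real.norm_eq_abs, sq_abs]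
  have h1 : ∑ i, ∑ k, (v x i * v x k / 2) ^ 2 = (∑ i, v x i ^ 2) ^ 2 / 4 := by
    rw [sq (∑ i, v x i ^ 2), Finset.sum_mul_sum, Finset.sum_div]
    refine Finset.sum_congr rfl fun i _ => ?_
    rw [Finset.sum_div]
    exact Finset.sum_congr rfl fun k _ => by ring
  have h2 : ∑ y : Fin n, (if y = x then (1 : ℝ) / 2 else 0) ^ 2 = 1 / 4 := by
    rw [Finset.sum_eq_single x (fun b _ hb => by simp [hb]) (by simp)]
    norm_num
  have h3 : ∑ i, (v x i / 2) ^ 2 = (∑ i, v x i ^ 2) / 4 := by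
    rw [Finset.sum_div]; exact Finset.sum_congr rfl fun i _ => by ring
  rw [h1, h2, h3]
  have h4 : 0 ≤ ∑ i, v x i ^ 2 := Finset.sum_nonneg fun i _ => sq_nonneg _
  nlinarith [hv x]

lemma inner_crd (z : Lift n d) (q : LiftIdx n d) : ⟪z, crd q⟫ = z q := by
  simp [crd, EuclideanSpace.inner_single_right]

lemma orthonormal_crd : Orthonormal ℝ (crd (n := n) (d := d)) :=
  EuclideanSpace.orthonormal_single

lemma inner_coefVec (U : Finset (Fin n)) (a : Fin n → ℝ) (z : Lift n d) :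
    ⟪z, coefVec U a⟫ = ∑ x ∈ U, a x * z (.inr (.inr x)) := by
  simp only [PiLp.inner_apply, coefVec, Fintype.sum_sum_type, RCLike.inner_apply, conj_trivial]
  simp [ite_mul, Finset.sum_ite_mem]

lemma norm_coefVec (U : Finset (Fin n)) (a : Fin n → ℝ) :
    ‖(coefVec U a : Lift n d)‖ ^ 2 = ∑ x ∈ U, a x ^ 2 := by
  simp only [EuclideanSpace.norm_sq_eq, coefVec, Fintype.sum_sum_type, Real.norm_eq_abs, sq_abs]
  simp [ite_pow, Finset.sum_ite_mem]

/-- Failure bound of an ellipsoid, also for the degenerate one. -/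
lemma ell_loss {κ : Type*} (t : Finset κ) (w : κ → Lift n d) {σ r s : ℝ} (hσ0 : 0 ≤ σ)
    (hσ : ∀ z, ∑ i ∈ t, ⟪z, w i⟫ ^ 2 ≤ σ * ‖z‖ ^ 2)
    (hr : 2 * (∑ i ∈ t, ‖w i‖ ^ 2) + 4 * s * σ ≤ r) :
    stdGaussian (Lift n d) {z | ∑ i ∈ t, ⟪z, w i⟫ ^ 2 ≤ r}ᶜ
      ≤ ENNReal.ofReal (Real.exp (-s)) := by
  rcases hσ0.eq_or_lt with h | h
  · subst h
    have h0 : 0 ≤ ∑ i ∈ t, ‖w i‖ ^ 2 := Finset.sum_nonneg fun i _ => sq_nonneg _
    have : {z : Lift n d | ∑ i ∈ t, ⟪z, w i⟫ ^ 2 ≤ r}ᶜ = ∅ := by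
      rw [compl_empty_iff, eq_univ_iff_forall]
      intro z
      have := hσ z
      simp only [mem_ofPred_eq]
      linarith
    simp [this]
  · refine (measure_mono fun z hz => ?_).trans (ellipsoid_tail t w h hσ s)
    simp only [mem_compl_iff, mem_ofPred_eq, not_le] at hz ⊢
    exact lt_of_le_of_lt hr hz

/-- Sum of squares of some orthonormal coordinates with weights. -/
lemma crd_quad_le {κ : Type*} (t : Finset κ) (q : κ → LiftIdx n d) (hq : Function.Injective q)
    (l : κ → ℝ) {σ : ℝ} (hσ0 : 0 ≤ σ) (hl : ∀ i ∈ t, 0 ≤ l i ∧ l i ≤ σ) (z : Lift n d) :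
    ∑ i ∈ t, ⟪z, Real.sqrt (l i) • crd (q i)⟫ ^ 2 ≤ σ * ‖z‖ ^ 2 := by
  calc ∑ i ∈ t, ⟪z, Real.sqrt (l i) • crd (q i)⟫ ^ 2
      ≤ ∑ i ∈ t, σ * z (q i) ^ 2 := Finset.sum_le_sum fun i hi => by
        rw [real_inner_smul_right, inner_crd, mul_pow, Real.sq_sqrt (hl i hi).1]
        exact mul_le_mul_of_nonneg_right (hl i hi).2 (sq_nonneg _)
    _ ≤ σ * ‖z‖ ^ 2 := by
        rw [← Finset.mul_sum]
        refine mul_le_mul_of_nonneg_left ?_ hσ0
        have := (orthonormal_crd.comp q hq).sum_inner_products_le z (s := t)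
        simpa [real_inner_comm z, inner_crd, sq_abs] using this

lemma crd_loss {κ : Type*} (t : Finset κ) (q : κ → LiftIdx n d) (hq : Function.Injective q)
    (l : κ → ℝ) {σ r s : ℝ} (hσ0 : 0 ≤ σ) (hl : ∀ i ∈ t, 0 ≤ l i ∧ l i ≤ σ)
    (hr : 2 * (∑ i ∈ t, l i) + 4 * s * σ ≤ r) :
    stdGaussian (Lift n d) {z | ∑ i ∈ t, ⟪z, Real.sqrt (l i) • crd (q i)⟫ ^ 2 ≤ r}ᶜ
      ≤ ENNReal.ofReal (Real.exp (-s)) := by
  refine ell_loss t _ hσ0 (crd_quad_le t q hq l hσ0 hl) ?_
  rw [Finset.sum_congr rfl fun i hi => ?_]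
  · exact hr
  · rw [norm_smul, crd, PiLp.norm_single, norm_one, mul_one, Real.norm_eq_abs, sq_abs,
      Real.sq_sqrt (hl i hi).1]

/-- The data of one rounding. -/
structure Events (n d : ℕ) where
  v : Fin n → Fin d → ℝ
  U : Finset (Fin n)
  g : Fin d → ℝ
  B : Finset (Fin d)
  N : Finset (Fin d)
  Q : Finset (Fin d)
  θ : Fin d → ℝ
  ω : Fin d → Fin d → ℝ
  ω' : Fin d → Fin d → ℝ
  Ω : ℝ
  Ω' : ℝ
  hθ : ∀ i, 0 ≤ θ i
  hω : ∀ i k, 0 ≤ ω i k ∧ ω i k ≤ Ω
  hω' : ∀ i k, 0 ≤ ω' i k ∧ ω' i k ≤ Ω'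
  hΩ : 0 ≤ Ω
  hΩ' : 0 ≤ Ω'

namespace Events

variable (e : Events n d)

/-- The initial segments of `B` in the order `g`. -/
noncomputable def segs : Finset (Finset (Fin d)) :=
  e.B.image fun i => e.B.filter fun k => e.g k ≤ e.g i

/-- Weighted sum of squares of coordinates. -/
def crdBody {κ : Type*} (t : Finset κ) (q : κ → LiftIdx n d) (l : κ → ℝ) (r : ℝ) :
    Set (Lift n d) :=
  {z | ∑ i ∈ t, ⟪z, Real.sqrt (l i) • crd (q i)⟫ ^ 2 ≤ r}

/-- Sum of squares of linear forms. -/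
def vecBody {κ : Type*} (t : Finset κ) (w : κ → Lift n d) (r : ℝ) : Set (Lift n d) :=
  {z | ∑ i ∈ t, ⟪z, w i⟫ ^ 2 ≤ r}

/-- Poor coordinates as forms in the coefficient coordinates. -/
noncomputable def poorVec (i : Fin d) : Lift n d :=
  coefVec e.U fun x => Real.sqrt (e.θ i) * e.v x i

/-- The trace of the poor form. -/
def poorTr : ℝ := ∑ i ∈ e.Q, e.θ i * gram e.v e.U i i

/-- The body of all events at scale `w`. -/
noncomputable def body (w : ℕ) : Set (Lift n d) :=
  (⋂ S ∈ e.segs, crdBody S (fun i => .inl i) (fun _ => 1) (6 * S.card + 160 * w)) ∩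
  (crdBody e.N (fun i => .inl i) (fun _ => 1) (2 * e.N.card + 160 * w) ∩
  (crdBody Finset.univ (fun p : Fin d × Fin d => .inr (.inl p)) (fun p => e.ω p.1 p.2)
      (2 * (∑ i, ∑ k, e.ω i k) + 160 * w * e.Ω) ∩
  (crdBody Finset.univ (fun p : Fin d × Fin d => .inr (.inl p)) (fun p => e.ω' p.1 p.2)
      (2 * (∑ i, ∑ k, e.ω' i k) + 160 * w * e.Ω') ∩
  (vecBody e.Q e.poorVec ((2 + 160 * w) * e.poorTr) ∩
  (vecBody {()} (fun _ => ∑ i ∈ e.N, crd (.inr (.inl (i, i))))
      ((2 + 160 * w) * e.N.card) ∩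
  vecBody {()} (fun _ => coefVec e.U fun x => ∑ i ∈ e.Q, e.θ i * e.v x i ^ 2)
      ((2 + 160 * w) * ∑ x ∈ e.U, (∑ i ∈ e.Q, e.θ i * e.v x i ^ 2) ^ 2))))))

lemma body_closed (w : ℕ) : IsClosed (e.body w) :=
  (isClosed_biInter fun S _ => isClosed_ellipsoid _ _ _).inter
    ((isClosed_ellipsoid _ _ _).inter ((isClosed_ellipsoid _ _ _).inter
      ((isClosed_ellipsoid _ _ _).inter ((isClosed_ellipsoid _ _ _).inter
        ((isClosed_ellipsoid _ _ _).inter (isClosed_ellipsoid _ _ _))))))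

lemma body_convex (w : ℕ) : Convex ℝ (e.body w) :=
  (convex_iInter₂ fun S _ => convex_ellipsoid _ _ _).inter
    ((convex_ellipsoid _ _ _).inter ((convex_ellipsoid _ _ _).inter
      ((convex_ellipsoid _ _ _).inter ((convex_ellipsoid _ _ _).inter
        ((convex_ellipsoid _ _ _).inter (convex_ellipsoid _ _ _))))))

lemma body_neg (w : ℕ) : ∀ z ∈ e.body w, -z ∈ e.body w := by
  intro z hz
  simpa [body, crdBody, vecBody, inner_neg_left] using hz

lemma seg_eq_of_card {S S' : Finset (Fin d)} (hS : S ∈ e.segs) (hS' : S' ∈ e.segs)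
    (h : S.card = S'.card) : S = S' := by
  simp only [segs, Finset.mem_image] at hS hS'
  obtain ⟨i, -, rfl⟩ := hS
  obtain ⟨i', -, rfl⟩ := hS'
  rcases le_total (e.g i) (e.g i') with hle | hle
  · exact Finset.eq_of_subset_of_card_le
      (Finset.monotone_filter_right _ fun k _ hk => hk.trans hle) h.ge
  · exact (Finset.eq_of_subset_of_card_le
      (Finset.monotone_filter_right _ fun k _ hk => hk.trans hle) h.le).symm

lemma body_loss (w : ℕ) :
    stdGaussian (Lift n d) (e.body w)ᶜ ≤ ENNReal.ofReal (7 * Real.exp (-(40 * w))) := by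
  set γ := stdGaussian (Lift n d)
  set η := ENNReal.ofReal (Real.exp (-(40 * (w : ℝ)))) with hη
  have h7 : ENNReal.ofReal (7 * Real.exp (-(40 * (w : ℝ)))) = η + (η + (η + (η + (η + (η + η))))) := by
    rw [ENNReal.ofReal_mul (by norm_num), ENNReal.ofReal_ofNat, hη]
    ring
  rw [h7]
  simp only [body, compl_inter]
  refine (measure_union_le _ _).trans (add_le_add ?_ ((measure_union_le _ _).trans
    (add_le_add ?_ ((measure_union_le _ _).trans (add_le_add ?_ ((measure_union_le _ _).trans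
    (add_le_add ?_ ((measure_union_le _ _).trans (add_le_add ?_ ((measure_union_le _ _).trans
    (add_le_add ?_ ?_)))))))))))
  · -- segments
    simp only [compl_iInter]
    refine (measure_biUnion_finset_le _ _).trans ?_
    have hb : ∀ S ∈ e.segs, γ (crdBody S (fun i => .inl i) (fun _ => 1)
        (6 * S.card + 160 * w))ᶜ
        ≤ ENNReal.ofReal (Real.exp (-(40 * (w : ℝ))) * (1 / 2 : ℝ) ^ S.card) := by
      intro S _
      refine (crd_loss S _ Sum.inl_injective (fun _ => 1) (s := 40 * w + S.card) zero_le_one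
        (fun i _ => ⟨zero_le_one, le_rfl⟩) (by simp; linarith)).trans
        (ENNReal.ofReal_le_ofReal ?_)
      rw [neg_add, Real.exp_add]
      refine mul_le_mul_of_nonneg_left ?_ (Real.exp_pos _).le
      calc Real.exp (-(S.card : ℝ)) = Real.exp (-1) ^ S.card := by
            rw [← Real.exp_nat_mul]; ring_nf
        _ ≤ (1 / 2) ^ S.card := by
            refine pow_le_pow_left₀ (Real.exp_pos _).le ?_ _
            rw [Real.exp_neg, one_div]
            exact inv_anti₀ two_pos (by linarith [Real.exp_one_gt_d9])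
    refine (Finset.sum_le_sum hb).trans ?_
    rw [← ENNReal.ofReal_sum_of_nonneg fun S _ => by positivity, ← Finset.mul_sum]
    refine ENNReal.ofReal_le_ofReal (mul_le_of_le_one_right (Real.exp_pos _).le ?_)
    rw [← Finset.sum_image (f := fun k : ℕ => (1 / 2 : ℝ) ^ k) (g := Finset.card)
      fun S hS S' hS' h => e.seg_eq_of_card hS hS' h]
    refine (Finset.sum_le_sum_of_subset_of_nonneg (t := Finset.Icc 1 d) ?_
      (fun k _ _ => by positivity)).trans ((geom d).le.trans (sub_le_self _ (by positivity)))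
    intro k hk
    simp only [Finset.mem_image, segs] at hk
    obtain ⟨S, ⟨i, hi, rfl⟩, rfl⟩ := hk
    refine Finset.mem_Icc.2 ⟨Finset.card_pos.2 ⟨i, by simp [hi]⟩, ?_⟩
    simpa using Finset.card_le_univ (e.B.filter fun k => e.g k ≤ e.g i)
  · exact crd_loss e.N _ Sum.inl_injective (fun _ => 1) (s := 40 * w) zero_le_one
      (fun i _ => ⟨zero_le_one, le_rfl⟩) (by simp; linarith)
  · refine crd_loss Finset.univ _ (Sum.inr_injective.comp Sum.inl_injective)
      (fun p : Fin d × Fin d => e.ω p.1 p.2) (s := 40 * w) e.hΩ (fun p _ => e.hω _ _) ?_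
    rw [Fintype.sum_prod_type]; linarith
  · refine crd_loss Finset.univ _ (Sum.inr_injective.comp Sum.inl_injective)
      (fun p : Fin d × Fin d => e.ω' p.1 p.2) (s := 40 * w) e.hΩ' (fun p _ => e.hω' _ _) ?_
    rw [Fintype.sum_prod_type]; linarith
  · have htr : ∑ i ∈ e.Q, ‖e.poorVec i‖ ^ 2 = e.poorTr := by
      refine Finset.sum_congr rfl fun i _ => ?_
      rw [poorVec, norm_coefVec, gram, Finset.mul_sum]
      exact Finset.sum_congr rfl fun x _ => by
        rw [mul_pow, Real.sq_sqrt (e.hθ i)]; ring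
    refine ell_loss e.Q _ (σ := e.poorTr) (s := 40 * w) (htr ▸ Finset.sum_nonneg fun i _ =>
      sq_nonneg _) (fun z => ?_) (le_of_eq (by rw [htr]; ring))
    rw [← htr, Finset.sum_mul]
    refine Finset.sum_le_sum fun i _ => ?_
    rw [← mul_pow, mul_comm, ← sq_abs]
    exact pow_le_pow_left₀ (abs_nonneg _) (abs_real_inner_le_norm _ _) 2
  · set a : Lift n d := ∑ i ∈ e.N, crd (.inr (.inl (i, i)))
    have ha : ‖a‖ ^ 2 = e.N.card := by
      rw [← real_inner_self_eq_norm_sq]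
      have h := (orthonormal_crd (n := n) (d := d)).comp (fun i : Fin d => Sum.inr (Sum.inl (i, i)))
        (fun i k h => by simpa using h)
      simpa [a, Function.comp_def] using h.inner_sum (fun _ => (1 : ℝ)) (fun _ => (1 : ℝ)) e.N
    refine ell_loss {()} _ (σ := ‖a‖ ^ 2) (s := 40 * w) (sq_nonneg _) (fun z => ?_)
      (le_of_eq (by simp [ha]; ring))
    rw [Finset.sum_singleton, ← mul_pow, mul_comm, ← sq_abs]
    exact pow_le_pow_left₀ (abs_nonneg _) (abs_real_inner_le_norm _ _) 2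
  · set a : Lift n d := coefVec e.U fun x => ∑ i ∈ e.Q, e.θ i * e.v x i ^ 2
    refine ell_loss {()} _ (σ := ‖a‖ ^ 2) (s := 40 * w) (sq_nonneg _) (fun z => ?_)
      (le_of_eq (by simp [a, norm_coefVec]; ring))
    rw [Finset.sum_singleton, ← mul_pow, mul_comm, ← sq_abs]
    exact pow_le_pow_left₀ (abs_nonneg _) (abs_real_inner_le_norm _ _) 2

/-- The lifted statistic of coefficients `c`. -/
noncomputable def stat (c : Fin n → ℝ) : Lift n d :=
  (40000 : ℝ)⁻¹ • ∑ x ∈ e.U, c x • liftVec e.v x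

lemma stat_inl (c : Fin n → ℝ) (i : Fin d) : e.stat c (.inl i) = lin e.v e.U c i / 80000 := by
  simp only [stat, PiLp.smul_apply, WithLp.ofLp_sum, Finset.sum_apply, liftVec, smul_eq_mul, lin]
  rw [Finset.sum_div, Finset.mul_sum]
  exact Finset.sum_congr rfl fun x _ => by ring

lemma stat_pair (c : Fin n → ℝ) (i k : Fin d) :
    e.stat c (.inr (.inl (i, k))) = quad e.v e.U c i k / 80000 := by
  simp only [stat, PiLp.smul_apply, WithLp.ofLp_sum, Finset.sum_apply, liftVec, smul_eq_mul, quad]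
  rw [Finset.sum_div, Finset.mul_sum]
  exact Finset.sum_congr rfl fun x _ => by ring

lemma stat_item (c : Fin n → ℝ) {y : Fin n} (hy : y ∈ e.U) :
    e.stat c (.inr (.inr y)) = c y / 80000 := by
  simp only [stat, PiLp.smul_apply, WithLp.ofLp_sum, Finset.sum_apply, liftVec, smul_eq_mul,
    mul_ite, mul_zero, Finset.sum_ite_eq, hy, if_true]
  ring

/-- Membership of the statistic in the body gives every bound. -/
lemma fresh_of_mem {w : ℕ} (hw : 1 ≤ w) {c : Fin n → ℝ} (hc : e.stat c ∈ e.body w) :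
    FreshBound (10 ^ 13) w e.v e.U e.g e.B e.N e.Q e.θ e.ω e.ω' e.Ω e.Ω' c := by
  have hw' : (1 : ℝ) ≤ w := by exact_mod_cast hw
  obtain ⟨hseg, hcross, hbal, hbal', hpoor, hcd, hpd⟩ := hc
  refine ⟨fun τ S hS hne => ?_, ?_, ?_, ?_, ?_, ?_, ?_⟩
  · obtain ⟨i, hi, himax⟩ := S.exists_max_image e.g hne
    have hmem : S ∈ e.segs := by
      refine Finset.mem_image.2 ⟨i, ?_, ?_⟩
      · rw [hS] at hi; exact (Finset.mem_filter.1 hi).1
      · ext k
        constructor
        · intro hk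
          rw [hS] at hi ⊢
          simp only [Finset.mem_filter] at hk hi ⊢
          exact ⟨hk.1, hk.2.trans hi.2⟩
        · intro hk
          refine Finset.mem_filter.2 ⟨?_, himax k hk⟩
          rw [hS] at hk; exact (Finset.mem_filter.1 hk).1
    have h := mem_iInter₂.1 hseg S hmem
    have hcard : (1 : ℝ) ≤ (S.card : ℝ) := by exact_mod_cast Finset.card_pos.2 hne
    simp only [crdBody, mem_ofPred_eq, Real.sqrt_one, one_smul, inner_crd, stat_inl,
      div_pow, ← Finset.sum_div] at h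
    rw [div_le_iff₀ (by norm_num)] at h
    refine h.trans ?_
    nlinarith
  · have hN : (0 : ℝ) ≤ (e.N.card : ℝ) := Nat.cast_nonneg _
    simp only [crdBody, mem_ofPred_eq, Real.sqrt_one, one_smul, inner_crd, stat_inl,
      div_pow, ← Finset.sum_div] at hcross
    rw [div_le_iff₀ (by norm_num)] at hcross
    nlinarith
  · have hterm : ∀ i, ⟪e.stat c, e.poorVec i⟫ ^ 2 = e.θ i * lin e.v e.U c i ^ 2 / 80000 ^ 2 := by
      intro i
      have h1 : ⟪e.stat c, e.poorVec i⟫ = Real.sqrt (e.θ i) * lin e.v e.U c i / 80000 := by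
        rw [poorVec, inner_coefVec, lin, Finset.mul_sum, Finset.sum_div]
        exact Finset.sum_congr rfl fun x hx => by rw [e.stat_item c hx]; ring
      rw [h1, div_pow, mul_pow, Real.sq_sqrt (e.hθ i)]
    have htr : 0 ≤ e.poorTr := Finset.sum_nonneg fun i _ =>
      mul_nonneg (e.hθ i) (Finset.sum_nonneg fun x _ => mul_self_nonneg _)
    simp only [vecBody, mem_ofPred_eq, hterm, ← Finset.sum_div] at hpoor
    rw [div_le_iff₀ (by norm_num)] at hpoor
    change _ ≤ _ * e.poorTr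
    nlinarith [mul_nonneg htr (sub_nonneg.2 hw')]
  · simp only [crdBody, mem_ofPred_eq, real_inner_smul_right, inner_crd, mul_pow,
      Real.sq_sqrt (e.hω _ _).1, Fintype.sum_prod_type, stat_pair, div_pow,
      ← mul_div_assoc, ← Finset.sum_div] at hbal
    rw [div_le_iff₀ (by norm_num)] at hbal
    have hsum : 0 ≤ ∑ i, ∑ k, e.ω i k :=
      Finset.sum_nonneg fun i _ => Finset.sum_nonneg fun k _ => (e.hω i k).1
    nlinarith [mul_nonneg e.hΩ (le_trans zero_le_one hw')]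
  · simp only [crdBody, mem_ofPred_eq, real_inner_smul_right, inner_crd, mul_pow,
      Real.sq_sqrt (e.hω' _ _).1, Fintype.sum_prod_type, stat_pair, div_pow,
      ← mul_div_assoc, ← Finset.sum_div] at hbal'
    rw [div_le_iff₀ (by norm_num)] at hbal'
    have hsum : 0 ≤ ∑ i, ∑ k, e.ω' i k :=
      Finset.sum_nonneg fun i _ => Finset.sum_nonneg fun k _ => (e.hω' i k).1
    nlinarith [mul_nonneg e.hΩ' (le_trans zero_le_one hw')]
  · have hN : (0 : ℝ) ≤ (e.N.card : ℝ) := Nat.cast_nonneg _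
    simp only [vecBody, mem_ofPred_eq, Finset.sum_singleton, inner_sum, inner_crd, stat_pair,
      ← Finset.sum_div, div_pow] at hcd
    rw [div_le_iff₀ (by norm_num)] at hcd
    refine abs_le_of_sq_le_sq (le_trans hcd ?_) (by positivity)
    nlinarith [mul_nonneg hN (sub_nonneg.2 hw'), sq_nonneg ((e.N.card : ℝ) - w)]
  · set A := ∑ x ∈ e.U, (∑ i ∈ e.Q, e.θ i * e.v x i ^ 2) ^ 2
    have hA : 0 ≤ A := Finset.sum_nonneg fun x _ => sq_nonneg _
    have hlin : ⟪e.stat c, (coefVec e.U fun x => ∑ i ∈ e.Q, e.θ i * e.v x i ^ 2 : Lift n d)⟫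
        = (∑ i ∈ e.Q, e.θ i * quad e.v e.U c i i) / 80000 := by
      rw [inner_coefVec, Finset.sum_div]
      simp only [quad, Finset.mul_sum, Finset.sum_mul, Finset.sum_div]
      rw [Finset.sum_comm]
      refine Finset.sum_congr rfl fun i _ => Finset.sum_congr rfl fun x hx => ?_
      rw [e.stat_item c hx]; ring
    simp only [vecBody, mem_ofPred_eq, Finset.sum_singleton, hlin, div_pow] at hpd
    rw [div_le_iff₀ (by norm_num)] at hpd
    refine abs_le_of_sq_le_sq (le_trans hpd ?_) (by positivity)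
    rw [mul_pow, Real.sq_sqrt (by positivity)]
    nlinarith [mul_nonneg hA (sub_nonneg.2 hw')]

lemma loss_numeric {w : ℕ} (hw : 1 ≤ w) :
    (2 ^ (w + 1) + 1 : ℝ) * (7 * Real.exp (-(40 * (w : ℝ)))) ≤ 1 / 40000000 := by
  have he : Real.exp (-(40 * (w : ℝ))) ≤ ((1 / 2 : ℝ) ^ 40) ^ w := by
    rw [show -(40 * (w : ℝ)) = ((40 * w : ℕ) : ℝ) * -1 by push_cast; ring, Real.exp_nat_mul,
      ← pow_mul]
    refine pow_le_pow_left₀ (Real.exp_pos _).le ?_ _
    rw [Real.exp_neg, one_div]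
    exact inv_anti₀ two_pos (by linarith [Real.exp_one_gt_d9])
  have h2 : (2 ^ (w + 1) + 1 : ℝ) ≤ 4 * 2 ^ w := by
    rw [pow_succ]; linarith [one_le_pow₀ (n := w) (one_le_two (α := ℝ))]
  calc (2 ^ (w + 1) + 1 : ℝ) * (7 * Real.exp (-(40 * (w : ℝ))))
      ≤ 4 * 2 ^ w * (7 * ((1 / 2 : ℝ) ^ 40) ^ w) := by gcongr
    _ = 28 * (2 * (1 / 2 : ℝ) ^ 40) ^ w := by rw [mul_pow]; ring
    _ ≤ 28 * (2 * (1 / 2 : ℝ) ^ 40) := by
        refine mul_le_mul_of_nonneg_left ?_ (by norm_num)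
        exact pow_le_of_le_one (by positivity) (by norm_num) (by omega)
    _ ≤ _ := by norm_num

end Events

/-- Equal windows, every event at every boundary. -/
theorem windows_fresh (e : Events n d) (hv : ∀ x, ∑ i, e.v x i ^ 2 ≤ 1) {w m : ℕ} (hw : 1 ≤ w)
    (hm : m = 2 ^ (w + 1)) :
    ∃ f : Fin n → ℕ, (∀ x, f x < m) ∧ ∀ k ≤ m,
      FreshBound (10 ^ 13) w e.v e.U e.g e.B e.N e.Q e.θ e.ω e.ω' e.Ω e.Ω'
        (fun x => (if f x < k then 1 else 0) - (k : ℝ) / m) := by
  subst hm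
  obtain ⟨f, hf, hfK⟩ := ordered_partition (w + 1) e.U (liftVec e.v)
    (fun x _ => norm_liftVec_le hv x) (e.body w) (e.body_closed w) (e.body_convex w)
    (e.body_neg w) (by
      calc (2 ^ (w + 1) + 1 : ℝ≥0∞) * stdGaussian (Lift n d) (e.body w)ᶜ
          ≤ (2 ^ (w + 1) + 1 : ℝ≥0∞) * ENNReal.ofReal (7 * Real.exp (-(40 * (w : ℝ)))) :=
            mul_le_mul_right (e.body_loss w) _
        _ = ENNReal.ofReal ((2 ^ (w + 1) + 1) * (7 * Real.exp (-(40 * (w : ℝ))))) := by
            rw [ENNReal.ofReal_mul (p := (2 : ℝ) ^ (w + 1) + 1) (by positivity),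
              ENNReal.ofReal_add (by positivity) zero_le_one, ENNReal.ofReal_pow zero_le_two,
              ENNReal.ofReal_ofNat, ENNReal.ofReal_one]
        _ ≤ _ := ENNReal.ofReal_le_ofReal (Events.loss_numeric hw))
  refine ⟨f, hf, fun k hk => e.fresh_of_mem hw ?_⟩
  convert hfK k hk using 1
  rw [Events.stat, Finset.sum_filter, Finset.smul_sum, Finset.smul_sum,
    ← Finset.sum_sub_distrib, Finset.smul_sum]
  refine Finset.sum_congr rfl fun x _ => ?_
  push_cast
  split_ifs <;> module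

/-- One rounding of signed fractional choices. -/
theorem transfer_fresh (e : Events n d) (hv : ∀ x, ∑ i, e.v x i ^ 2 ≤ 1) (y σ : Fin n → ℝ)
    (hy : ∀ x, 0 ≤ y x ∧ y x ≤ 1) (hσ : ∀ x, σ x = 1 ∨ σ x = -1) :
    ∃ M : Finset (Fin n), M ⊆ e.U ∧
      FreshBound (10 ^ 13) 1 e.v e.U e.g e.B e.N e.Q e.θ e.ω e.ω' e.Ω e.Ω'
        (fun x => σ x * ((if x ∈ M then 1 else 0) - y x)) := by
  classical
  have hnorm : ∀ x ∈ e.U, ‖σ x • liftVec e.v x‖ ≤ 1 := fun x _ => by
    rcases hσ x with h | h <;> simp [h, norm_liftVec_le hv x]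
  obtain ⟨r, hr⟩ := round_flag e.U (fun x => σ x • liftVec e.v x) hnorm (fun _ => 0) 1
    (fun j => if j = 0 then univ else e.body 1)
    (fun j _ => by split_ifs; exacts [isClosed_univ, e.body_closed 1])
    (fun j _ => by split_ifs; exacts [convex_univ, e.body_convex 1])
    (fun j _ x hx => by split_ifs at hx ⊢; exacts [trivial, e.body_neg 1 x hx])
    (by
      rw [Finset.sum_range_succ, Finset.sum_range_one]
      simp only [if_true, compl_univ, measure_empty, zero_add, one_ne_zero, if_false]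
      refine (e.body_loss 1).trans (ENNReal.ofReal_le_ofReal ?_)
      have := Events.loss_numeric le_rfl
      nlinarith [Real.exp_pos (-(40 * ((1 : ℕ) : ℝ)))])
    y (fun x _ => hy x)
  refine ⟨e.U.filter fun x => r x = true, Finset.filter_subset _ _, e.fresh_of_mem le_rfl ?_⟩
  have h1 := hr 1 le_rfl
  simp only [one_ne_zero, if_false, zero_lt_one, Finset.filter_true] at h1
  convert h1 using 1
  rw [Events.stat]
  congr 1
  refine Finset.sum_congr rfl fun x hx => ?_
  simp only [Finset.mem_filter, hx, true_and]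
  module

theorem windowsProp : WindowsProp := by
  refine ⟨10 ^ 13, by norm_num, ?_⟩
  intro n d v hv U g B N Q θ ω ω' Ω Ω' hθ hω hω' hΩ hΩ' w m hw hm
  exact windows_fresh ⟨v, U, g, B, N, Q, θ, ω, ω', Ω, Ω', hθ, hω, hω', hΩ, hΩ'⟩ hv hw hm

theorem transferProp : TransferProp := by
  refine ⟨10 ^ 13, by norm_num, ?_⟩
  intro n d v hv U g B N Q θ ω ω' Ω Ω' hθ hω hω' hΩ hΩ' y σ hy hσ
  exact transfer_fresh ⟨v, U, g, B, N, Q, θ, ω, ω', Ω, Ω', hθ, hω, hω', hΩ, hΩ'⟩ hv y σ hy hσ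

end Vale.Agent.P262.Gauss
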