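import Vale.Agent.P262.Gauss.PL

/-!
A Gaussian shift lemma of Banaszczyk type for symmetric convex compact bodies of nearly full
measure: the set `K ∗ u` lies in `(K + u) ∪ (K - u)` and has at least the measure of `K`.
The proof uses only midpoint log-concavity and Fubini.
-/

open MeasureTheory ProbabilityTheory Set
open scoped ENNReal

namespace Vale.Agent.P262.Gauss

set_option linter.unusedSectionVars false

variable {F : Type*} [NormedAddCommGroup F] [NormedSpace ℝ F]

/-- Points whose fibre contains two points of `[-x, x]` at distance `l`. -/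
def chord (K : Set (ℝ × F)) (x l : ℝ) : Set F :=
  Prod.snd '' {p | p ∈ K ∧ (p.1 + l, p.2) ∈ K ∧ -x ≤ p.1 ∧ p.1 + l ≤ x}

/-- Points whose fibre contains two points at distance `l`. -/
def wide (K : Set (ℝ × F)) (l : ℝ) : Set F :=
  Prod.snd '' {p | p ∈ K ∧ (p.1 + l, p.2) ∈ K}

/-- The shifted body. -/
def star (K : Set (ℝ × F)) (a : ℝ) : Set (ℝ × F) :=
  Prod.snd ⁻¹' wide K (2 * a) ∩
    (fun q : (ℝ × F) × ℝ => (q.1.1 + q.2, q.1.2)) '' (K ×ˢ Icc (-a) a)

lemma mem_chord {K : Set (ℝ × F)} {x l : ℝ} {y : F} :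
    y ∈ chord K x l ↔ ∃ r, (r, y) ∈ K ∧ (r + l, y) ∈ K ∧ -x ≤ r ∧ r + l ≤ x := by
  constructor
  · rintro ⟨⟨r, y⟩, h, rfl⟩; exact ⟨r, h⟩
  · rintro ⟨r, h⟩; exact ⟨(r, y), h, rfl⟩

lemma mem_wide {K : Set (ℝ × F)} {l : ℝ} {y : F} :
    y ∈ wide K l ↔ ∃ r, (r, y) ∈ K ∧ (r + l, y) ∈ K := by
  constructor
  · rintro ⟨⟨r, y⟩, h, rfl⟩; exact ⟨r, h⟩
  · rintro ⟨r, h⟩; exact ⟨(r, y), h, rfl⟩

lemma mem_star {K : Set (ℝ × F)} {a : ℝ} {p : ℝ × F} :
    p ∈ star K a ↔ p.2 ∈ wide K (2 * a) ∧ ∃ s, |p.1 - s| ≤ a ∧ (s, p.2) ∈ K := by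
  constructor
  · rintro ⟨hw, ⟨⟨s, y⟩, d⟩, ⟨hK, hd⟩, rfl⟩
    refine ⟨hw, s, ?_, hK⟩
    simpa [abs_le] using hd
  · rintro ⟨hw, s, hs, hK⟩
    refine ⟨hw, ((s, p.2), p.1 - s), ⟨hK, ?_⟩, by simp⟩
    simpa [abs_le] using hs

lemma mid_mem {K : Set (ℝ × F)} (hK : Convex ℝ K) {r r' : ℝ} {y y' : F}
    (h : (r, y) ∈ K) (h' : (r', y') ∈ K) :
    ((r + r') / 2, (2 : ℝ)⁻¹ • (y + y')) ∈ K := by
  have := hK h h' (by norm_num : (0 : ℝ) ≤ 2⁻¹) (by norm_num : (0 : ℝ) ≤ 2⁻¹) (by norm_num)
  convert this using 1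
  simp only [Prod.smul_mk, Prod.mk_add_mk, smul_add, smul_eq_mul, Prod.mk.injEq, and_true]
  ring

lemma fibre_mem {K : Set (ℝ × F)} (hK : Convex ℝ K) {r r' s : ℝ} {y : F}
    (h : (r, y) ∈ K) (h' : (r', y) ∈ K) (hs : r ≤ s) (hs' : s ≤ r') : (s, y) ∈ K := by
  have hc : Convex ℝ {t : ℝ | (t, y) ∈ K} := by
    intro t ht t' ht' a b ha hb hab
    have := hK ht ht' ha hb hab
    simpa [Prod.smul_mk, ← add_smul, hab] using this
  exact hc.ordConnected.out h h' ⟨hs, hs'⟩

lemma chord_anti {K : Set (ℝ × F)} (hK : Convex ℝ K) {x l l' : ℝ} (h0 : 0 ≤ l') (h : l' ≤ l) :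
    chord K x l ⊆ chord K x l' := by
  intro y hy
  obtain ⟨r, h1, h2, h3, h4⟩ := mem_chord.1 hy
  exact mem_chord.2 ⟨r, h1, fibre_mem hK h1 h2 (by linarith) (by linarith), h3, by linarith⟩

lemma chord_mid {K : Set (ℝ × F)} (hK : Convex ℝ K) {x l l' : ℝ} {y y' : F}
    (hy : y ∈ chord K x l) (hy' : y' ∈ chord K x l') :
    (2 : ℝ)⁻¹ • (y + y') ∈ chord K x ((l + l') / 2) := by
  obtain ⟨r, h1, h2, h3, h4⟩ := mem_chord.1 hy
  obtain ⟨r', h1', h2', h3', h4'⟩ := mem_chord.1 hy'
  refine mem_chord.2 ⟨(r + r') / 2, mid_mem hK h1 h1', ?_, by linarith, by linarith⟩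
  have := mid_mem hK h2 h2'
  convert this using 2
  ring

lemma isCompact_chord {K : Set (ℝ × F)} (hK : IsCompact K) (x l : ℝ) :
    IsCompact (chord K x l) := by
  refine IsCompact.image ?_ continuous_snd
  refine hK.of_isClosed_subset ?_ (fun p hp => hp.1)
  exact hK.isClosed.inter ((hK.isClosed.preimage (by fun_prop)).inter
    ((isClosed_le continuous_const continuous_fst).inter
      (isClosed_le (continuous_fst.add continuous_const) continuous_const)))

lemma isCompact_wide {K : Set (ℝ × F)} (hK : IsCompact K) (l : ℝ) :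
    IsCompact (wide K l) := by
  refine IsCompact.image ?_ continuous_snd
  refine hK.of_isClosed_subset ?_ (fun p hp => hp.1)
  exact hK.isClosed.inter (hK.isClosed.preimage (by fun_prop))

lemma isCompact_star {K : Set (ℝ × F)} (hK : IsCompact K) (a : ℝ) :
    IsCompact (star K a) := by
  refine IsCompact.inter_left ?_ ((isCompact_wide hK _).isClosed.preimage continuous_snd)
  exact (hK.prod isCompact_Icc).image (by fun_prop)

lemma convex_star {K : Set (ℝ × F)} (hK : Convex ℝ K) (a : ℝ) : Convex ℝ (star K a) := by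
  intro p hp q hq α β hα hβ hab
  obtain ⟨hpw, s, hs, hsK⟩ := mem_star.1 hp
  obtain ⟨hqw, s', hs', hsK'⟩ := mem_star.1 hq
  obtain ⟨r, h1, h2⟩ := mem_wide.1 hpw
  obtain ⟨r', h1', h2'⟩ := mem_wide.1 hqw
  refine mem_star.2 ⟨mem_wide.2 ⟨α * r + β * r', ?_, ?_⟩, α * s + β * s', ?_, ?_⟩
  · simpa using hK h1 h1' hα hβ hab
  · have := hK h2 h2' hα hβ hab
    convert this using 1
    simp only [Prod.smul_mk, Prod.mk_add_mk, smul_eq_mul, Prod.mk.injEq, Prod.snd_add,
      Prod.smul_snd, and_true]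
    linear_combination -(2 * a) * hab
  · rw [abs_le] at hs hs' ⊢
    simp only [Prod.fst_add, Prod.smul_fst, smul_eq_mul]
    constructor <;> nlinarith
  · simpa using hK hsK hsK' hα hβ hab

lemma neg_mem_star {K : Set (ℝ × F)} (hK : ∀ p ∈ K, -p ∈ K) {a : ℝ} {p : ℝ × F}
    (hp : p ∈ star K a) : -p ∈ star K a := by
  obtain ⟨hw, s, hs, hsK⟩ := mem_star.1 hp
  obtain ⟨r, h1, h2⟩ := mem_wide.1 hw
  refine mem_star.2 ⟨mem_wide.2 ⟨-(r + 2 * a), by simpa using hK _ h2, ?_⟩, -s, ?_,
    by simpa using hK _ hsK⟩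
  · have := hK _ h1
    simpa using this
  · rw [Prod.fst_neg, ← abs_neg]; convert hs using 2; ring

/-- `star K a` lies in `(K + u) ∪ (K - u)` for `u = (a, 0)`. -/
lemma star_subset {K : Set (ℝ × F)} (hK : Convex ℝ K) {a : ℝ} (ha : 0 ≤ a) {p : ℝ × F}
    (hp : p ∈ star K a) : p + (a, 0) ∈ K ∨ p - (a, 0) ∈ K := by
  obtain ⟨hw, s, hs, hsK⟩ := mem_star.1 hp
  obtain ⟨r, h1, h2⟩ := mem_wide.1 hw
  rw [abs_le] at hs
  obtain ⟨lo, hlo, hlo1, hlo2⟩ : ∃ lo, (lo, p.2) ∈ K ∧ lo ≤ r ∧ lo ≤ s := by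
    rcases le_total r s with h | h
    exacts [⟨r, h1, le_rfl, h⟩, ⟨s, hsK, h, le_rfl⟩]
  obtain ⟨hi, hhi, hhi1, hhi2⟩ : ∃ hi, (hi, p.2) ∈ K ∧ r + 2 * a ≤ hi ∧ s ≤ hi := by
    rcases le_total (r + 2 * a) s with h | h
    exacts [⟨s, hsK, h, le_rfl⟩, ⟨r + 2 * a, h2, le_rfl, h⟩]
  by_cases h : lo ≤ p.1 - a
  · right
    have := fibre_mem hK hlo hhi h (by linarith)
    rw [show p - (a, 0) = (p.1 - a, p.2) by ext <;> simp]
    exact this
  · left
    have := fibre_mem hK hlo hhi (s := p.1 + a) (by linarith) (by linarith)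
    rw [show p + (a, 0) = (p.1 + a, p.2) by ext <;> simp]
    exact this

/-- Next to a short clipped fibre there is an interval of gain. -/
lemma gain_interval {K : Set (ℝ × F)} (hKc : IsCompact K) (hK : Convex ℝ K) {a x : ℝ} {y : F}
    (ha : 0 ≤ a) (ha1 : a ≤ 1) (hx : 4 ≤ x) (h2 : y ∈ chord K x (2 * a))
    (h4 : y ∉ chord K x 4) :
    ∃ e, ∀ s ∈ Ioo e (e + a), s ∈ Icc (-x) x ∧ (s, y) ∈ star K a ∧ (s, y) ∉ K := by
  obtain ⟨r, r1, r2, r3, r4⟩ := mem_chord.1 h2
  have hw : y ∈ wide K (2 * a) := mem_wide.2 ⟨r, r1, r2⟩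
  set S : Set ℝ := {s | (s, y) ∈ K ∧ s ∈ Icc (-x) x} with hS
  have hSc : IsCompact S := isCompact_Icc.of_isClosed_subset
    ((hKc.isClosed.preimage (by fun_prop : Continuous fun s : ℝ => (s, y))).inter isClosed_Icc)
    (fun s hs => hs.2)
  have hSn : S.Nonempty := ⟨r, r1, r3, by linarith⟩
  have hp : sInf S ∈ S := hSc.sInf_mem hSn
  have hq : sSup S ∈ S := hSc.sSup_mem hSn
  set p := sInf S
  set q := sSup S
  have hlen : q < p + 4 := by
    by_contra hle
    push Not at hle
    exact h4 (mem_chord.2 ⟨p, hp.1, fibre_mem hK hp.1 hq.1 (by linarith) hle, hp.2.1,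
      hle.trans hq.2.2⟩)
  by_cases hcase : -x + a ≤ p
  · refine ⟨p - a, fun s hs => ?_⟩
    have hsI : s ∈ Icc (-x) x := ⟨by linarith [hs.1], by linarith [hs.2, hp.2.2]⟩
    refine ⟨hsI, mem_star.2 ⟨hw, p, ?_, hp.1⟩, fun hsK => ?_⟩
    · rw [abs_le]; constructor <;> linarith [hs.1, hs.2]
    · have hle : p ≤ s := csInf_le hSc.bddBelow ⟨hsK, hsI⟩
      linarith [hs.2]
  · push Not at hcase
    refine ⟨q, fun s hs => ?_⟩
    have hsI : s ∈ Icc (-x) x := ⟨by linarith [hs.1, hq.2.1], by linarith [hs.2]⟩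
    refine ⟨hsI, mem_star.2 ⟨hw, q, ?_, hq.1⟩, fun hsK => ?_⟩
    · rw [abs_le]; constructor <;> linarith [hs.1, hs.2]
    · have hle : s ≤ q := le_csSup hSc.bddAbove ⟨hsK, hsI⟩
      linarith [hs.1]

variable [MeasurableSpace F] [BorelSpace F] [SecondCountableTopology F]
  {ν : Measure F} [IsProbabilityMeasure ν]

lemma chord_algebra {T : ℝ} (hT0 : 0 < T) (hT1 : T ≤ 1) {c : ℕ → ℝ} (hc : ∀ j, 0 ≤ c j)
    (hcT : c 0 ≤ T) (h0 : 3 / 4 * T ≤ c 0 ^ 2) (hs : ∀ j, T * c j ≤ c (j + 1) ^ 2) (k : ℕ)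
    (hk : c k ≤ T) :
    T - c k ≤ 7 / 6 * (T - c 0) / 2 ^ k := by
  have low : ∀ j, 6 / 7 * T ≤ c j := by
    intro j
    induction j with
    | zero => nlinarith [hc 0]
    | succ j ih => nlinarith [hc (j + 1), hs j, mul_le_mul_of_nonneg_left ih hT0.le]
  have pos : ∀ j, 0 < c j := fun j => lt_of_lt_of_le (by linarith) (low j)
  have e : ∀ j, T / c j - 1 ≤ (T / c 0 - 1) / 2 ^ j := by
    intro j
    induction j with
    | zero => simp
    | succ j ih =>
      have h1 : (T / c (j + 1)) ^ 2 ≤ T / c j := by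
        have hj := pos j
        rw [div_pow, div_le_div_iff₀ (by positivity [pos (j + 1)]) hj]
        nlinarith [hs j]
      have h2 : T / c (j + 1) - 1 ≤ (T / c j - 1) / 2 := by
        nlinarith [sq_nonneg (T / c (j + 1) - 1)]
      calc T / c (j + 1) - 1 ≤ (T / c j - 1) / 2 := h2
        _ ≤ (T / c 0 - 1) / 2 ^ j / 2 := by linarith
        _ = _ := by rw [pow_succ, div_div]
  have h1 : T - c k = c k * (T / c k - 1) := by
    have := (pos k).ne'
    field_simp
  have h2 : T / c 0 - 1 = (T - c 0) / c 0 := by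
    have := (pos 0).ne'
    field_simp
  have h3 : 0 ≤ T / c k - 1 := by
    have := (one_le_div (pos k)).2 hk
    linarith
  calc T - c k = c k * (T / c k - 1) := h1
    _ ≤ T * ((T - c 0) / c 0 / 2 ^ k) := mul_le_mul hk (h2 ▸ e k) h3 hT0.le
    _ = T / c 0 * (T - c 0) / 2 ^ k := by ring
    _ ≤ 7 / 6 * (T - c 0) / 2 ^ k := by
      have h4 : T / c 0 ≤ 7 / 6 := by
        rw [div_le_iff₀ (pos 0)]
        linarith [low 0]
      exact div_le_div_of_nonneg_right (mul_le_mul_of_nonneg_right h4 (by linarith))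
        (by positivity)

/-- Measure of the loss layer in a band, against the layer above it. -/
lemma chord_measure (hν : MidLC ν) {K : Set (ℝ × F)} (hKc : IsCompact K) (hK : Convex ℝ K)
    {Z : Set F} (hZm : MeasurableSet Z) (hZ : ∀ z ∈ Z, (-4, z) ∈ K ∧ (4, z) ∈ K)
    (hνZ : (3 / 4 : ℝ) ≤ ν.real Z) {a x : ℝ} (ha : 0 < a) (ha1 : a ≤ 1 / 40) (hx : 4 ≤ x) :
    ν.real (chord K x 0 \ chord K x (2 * a))
      ≤ 3 / 2 * a * ν.real (chord K x (2 * a) \ chord K x 4) := by
  have hm : ∀ l, MeasurableSet (chord K x l) := fun l => (isCompact_chord hKc x l).measurableSet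
  have hsub1 : chord K x (2 * a) ⊆ chord K x 0 := chord_anti hK le_rfl (by linarith)
  have hsub2 : chord K x 4 ⊆ chord K x (2 * a) := chord_anti hK (by linarith) (by linarith)
  rw [measureReal_sdiff hsub1 (hm _), measureReal_sdiff hsub2 (hm _)]
  set T := ν.real (chord K x 0) with hT
  rcases (measureReal_nonneg : 0 ≤ T).lt_or_eq with hT0 | hT0
  swap
  · have h1 := measureReal_mono (μ := ν) hsub1
    have h2 := measureReal_mono (μ := ν) hsub2
    have h3 : 0 ≤ ν.real (chord K x 4) := measureReal_nonneg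
    have h4 : 0 ≤ ν.real (chord K x (2 * a)) := measureReal_nonneg
    rw [← hT0] at h1
    nlinarith
  have sets : ∀ {A B C : Set F}, MeasurableSet A → MeasurableSet B → MeasurableSet C →
      (∀ y ∈ A, ∀ y' ∈ B, (2 : ℝ)⁻¹ • (y + y') ∈ C) → ν.real A * ν.real B ≤ ν.real C ^ 2 := by
    intro A B C hA hB hC h
    have := hν.sets hA hB hC h
    simp only [measureReal_def, ← ENNReal.toReal_mul, ← ENNReal.toReal_pow]
    exact ENNReal.toReal_mono (by finiteness) this
  have hZmid : ∀ y ∈ chord K x 0, ∀ z ∈ Z, (2 : ℝ)⁻¹ • (y + z) ∈ chord K x 4 := by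
    intro y hy z hz
    obtain ⟨r, h1, -, h3, h4⟩ := mem_chord.1 hy
    refine mem_chord.2 ⟨(r + -4) / 2, mid_mem hK h1 (hZ z hz).1, ?_, by linarith, by linarith⟩
    have := mid_mem hK h1 (hZ z hz).2
    convert this using 2
    ring
  set c : ℕ → ℝ := fun j => ν.real (chord K x (4 / 2 ^ j)) with hc
  have hcle : ∀ j, c j ≤ T := fun j => measureReal_mono (chord_anti hK le_rfl (by positivity))
  have h0 : 3 / 4 * T ≤ c 0 ^ 2 := by
    have := sets (hm 0) hZm (hm 4) hZmid
    simp only [hc, pow_zero, div_one]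
    nlinarith [mul_le_mul_of_nonneg_left hνZ hT0.le]
  have hs : ∀ j, T * c j ≤ c (j + 1) ^ 2 := fun j => sets (hm _) (hm _) (hm _) fun y hy y' hy' => by
    have := chord_mid hK hy hy'
    convert this using 2
    rw [pow_succ]; field_simp; ring
  obtain ⟨k, hk1, hk2⟩ := exists_nat_pow_near (show 1 ≤ 2 / a by rw [le_div_iff₀ ha]; linarith)
    (show (1 : ℝ) < 2 by norm_num)
  have hk3 : 1 / 2 ^ k ≤ a := by
    rw [div_le_iff₀ (by positivity)]
    rw [div_lt_iff₀ ha, pow_succ] at hk2
    linarith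
  have hk4 : 2 * a ≤ 4 / 2 ^ k := by
    rw [le_div_iff₀ (by positivity)]
    rw [le_div_iff₀ ha] at hk1
    linarith
  have halg := chord_algebra (c := c) hT0 measureReal_le_one (fun j => measureReal_nonneg) (hcle 0)
    h0 hs k
    (hcle k)
  have hck : c k ≤ ν.real (chord K x (2 * a)) := measureReal_mono (chord_anti hK (by linarith) hk4)
  have hc0 : c 0 = ν.real (chord K x 4) := by simp [hc]
  have h2a : ν.real (chord K x (2 * a)) ≤ T := measureReal_mono hsub1
  have h4a : ν.real (chord K x 4) ≤ ν.real (chord K x (2 * a)) := measureReal_mono hsub2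
  have h5 : 7 / 6 * (T - c 0) / 2 ^ k ≤ 7 / 6 * (T - c 0) * a := by
    rw [div_eq_mul_one_div]
    exact mul_le_mul_of_nonneg_left hk3 (by nlinarith [hcle 0])
  rw [hc0] at halg h5
  nlinarith

lemma lintegral_dens_tail {M : ℝ} (hM : 0 < M) :
    ∫⁻ x in Ioi M, ENNReal.ofReal (dens x) ≤ ENNReal.ofReal (dens M / M) := by
  have hbound : ∀ x, M < x → dens x ≤ dens M * Real.exp (M * M) * Real.exp (-M * x) := by
    intro x hx
    rw [dens_eq, dens_eq, mul_assoc, mul_assoc, ← Real.exp_add, ← Real.exp_add]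
    refine mul_le_mul_of_nonneg_left (Real.exp_le_exp.2 ?_) (inv_nonneg.2 (Real.sqrt_nonneg _))
    nlinarith [sq_nonneg (x - M)]
  have hint : IntegrableOn (fun x => dens M * Real.exp (M * M) * Real.exp (-M * x)) (Ioi M) :=
    (integrableOn_exp_mul_Ioi (by linarith) M).const_mul _
  calc ∫⁻ x in Ioi M, ENNReal.ofReal (dens x)
      ≤ ∫⁻ x in Ioi M, ENNReal.ofReal (dens M * Real.exp (M * M) * Real.exp (-M * x)) :=
        setLIntegral_mono' measurableSet_Ioi fun x hx => ENNReal.ofReal_le_ofReal (hbound x hx)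
    _ = ENNReal.ofReal (∫ x in Ioi M, dens M * Real.exp (M * M) * Real.exp (-M * x)) :=
        (ofReal_integral_eq_lintegral_ofReal hint (Filter.Eventually.of_forall fun x =>
          mul_nonneg (mul_nonneg (dens_nonneg M) (Real.exp_pos _).le) (Real.exp_pos _).le)).symm
    _ = ENNReal.ofReal (dens M / M) := by
      rw [integral_const_mul, integral_exp_mul_Ioi (by linarith) M]
      congr 1
      rw [neg_div_neg_eq, ← mul_div_assoc, mul_assoc, ← Real.exp_add,
        show M * M + -M * M = 0 by ring, Real.exp_zero, mul_one]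

lemma lintegral_dens_band {x : ℝ} :
    ∫⁻ t in {t | 4 < |t| ∧ |x| ≤ |t|}, ENNReal.ofReal (dens t)
      ≤ ENNReal.ofReal (dens x / 2) := by
  set M := max 4 |x| with hM
  have hM4 : 4 ≤ M := le_max_left _ _
  have hsub : {t : ℝ | 4 < |t| ∧ |x| ≤ |t|} ⊆ (Ioi M ∪ Iio (-M)) ∪ {M, -M} := by
    intro t ht
    have h1 : M ≤ |t| := max_le ht.1.le ht.2
    rcases lt_or_eq_of_le h1 with h | h
    · rcases lt_abs.1 h with h' | h'
      · exact Or.inl (Or.inl h')
      · exact Or.inl (Or.inr (show t < -M by linarith))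
    · rcases (abs_eq (by linarith : (0 : ℝ) ≤ M)).1 h.symm with h' | h'
      · exact Or.inr (Or.inl h')
      · exact Or.inr (Or.inr h')
  have hneg : ∫⁻ t in Iio (-M), ENNReal.ofReal (dens t)
      = ∫⁻ t in Ioi M, ENNReal.ofReal (dens t) := by
    rw [← (Measure.measurePreserving_neg (volume : Measure ℝ)).setLIntegral_comp_preimage
      measurableSet_Iio measurable_dens.ennreal_ofReal]
    have : (Neg.neg : ℝ → ℝ) ⁻¹' Iio (-M) = Ioi M := by ext t; simp
    rw [this]
    simp [dens_eq]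
  have h1 : dens M ≤ dens x := dens_le ((le_max_right 4 |x|).trans (le_abs_self _))
  calc ∫⁻ t in {t | 4 < |t| ∧ |x| ≤ |t|}, ENNReal.ofReal (dens t)
      ≤ (∫⁻ t in Ioi M ∪ Iio (-M), ENNReal.ofReal (dens t))
        + ∫⁻ t in ({M, -M} : Set ℝ), ENNReal.ofReal (dens t) :=
        (lintegral_mono_set hsub).trans (lintegral_union_le _ _ _)
    _ ≤ (ENNReal.ofReal (dens M / M) + ENNReal.ofReal (dens M / M)) + 0 := by
        refine add_le_add ((lintegral_union_le _ _ _).trans ?_) ?_
        · rw [hneg]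
          exact add_le_add (lintegral_dens_tail (by linarith)) (lintegral_dens_tail (by linarith))
        · exact (setLIntegral_measure_zero _ _ (Set.Finite.measure_zero (Set.toFinite _) _)).le
    _ ≤ ENNReal.ofReal (dens x / 2) := by
        rw [add_zero, ← ENNReal.ofReal_add (div_nonneg (dens_nonneg M) (by linarith))
          (div_nonneg (dens_nonneg M) (by linarith))]
        refine ENNReal.ofReal_le_ofReal ?_
        have : dens M / M ≤ dens M / 4 :=
          div_le_div_of_nonneg_left (dens_nonneg M) (by norm_num) hM4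
        linarith

lemma exp_eight_le : Real.exp 8 ≤ 3000 := by
  have h := Real.exp_one_lt_d9
  have : Real.exp 8 = Real.exp 1 ^ 8 := by rw [← Real.exp_nat_mul]; norm_num
  rw [this]
  exact (pow_le_pow_left₀ (Real.exp_pos 1).le h.le 8).trans (by norm_num)

lemma dens_ratio {s : ℝ} (hs : |s| ≤ 4) : dens 0 ≤ 3000 * dens s := by
  calc dens 0 = Real.exp 8 * dens 4 := by
        rw [dens_eq, dens_eq, mul_left_comm, ← Real.exp_add]; norm_num
    _ ≤ 3000 * dens s := mul_le_mul exp_eight_le (dens_le (by simpa using hs)) (dens_nonneg 4)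
        (by norm_num)

lemma dens_five : (1 : ℝ) / 2000000 ≤ dens 5 := by
  rw [dens_eq]
  have h1 : Real.sqrt (2 * Real.pi) ≤ 3 :=
    Real.sqrt_le_iff.2 ⟨by norm_num, by linarith [Real.pi_lt_d2]⟩
  have h2 : Real.exp 13 ≤ 500000 := by
    have h := Real.exp_one_lt_d9
    have : Real.exp 13 = Real.exp 1 ^ 13 := by rw [← Real.exp_nat_mul]; norm_num
    rw [this]
    exact (pow_le_pow_left₀ (Real.exp_pos 1).le h.le 13).trans (by norm_num)
  have h3 : (1 : ℝ) / 500000 ≤ Real.exp (-5 ^ 2 / 2) := by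
    calc (1 : ℝ) / 500000 ≤ 1 / Real.exp 13 := by gcongr
      _ = Real.exp (-13) := by rw [Real.exp_neg, one_div]
      _ ≤ _ := Real.exp_le_exp.2 (by norm_num)
  have h4 : (1 : ℝ) / 3 ≤ (Real.sqrt (2 * Real.pi))⁻¹ := by
    rw [one_div]; exact inv_anti₀ (by positivity) h1
  calc (1 : ℝ) / 2000000 ≤ 1 / 3 * (1 / 500000) := by norm_num
    _ ≤ _ := mul_le_mul h4 h3 (by norm_num) (by positivity)

lemma prod_section {S : Set (ℝ × F)} (hS : MeasurableSet S) :
    ((gaussianReal 0 1).prod ν) S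
      = ∫⁻ x, ENNReal.ofReal (dens x) * ν (Prod.mk x ⁻¹' S) := by
  rw [Measure.prod_apply hS, lintegral_gaussian (measurable_measure_prodMk_left hS)]

/-- Some far section of a body of nearly full measure is large. -/
lemma exists_far_section {K : Set (ℝ × F)} (hKm : MeasurableSet K)
    (hγ : ((gaussianReal 0 1).prod ν) Kᶜ ≤ ENNReal.ofReal (1 / 20000000)) :
    ∃ R, 4 ≤ R ∧ ν (Prod.mk R ⁻¹' Kᶜ) ≤ ENNReal.ofReal (1 / 8) := by
  by_contra h
  push Not at h
  have : ENNReal.ofReal (1 / 20000000) < ((gaussianReal 0 1).prod ν) Kᶜ := by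
    calc ENNReal.ofReal (1 / 20000000)
        < ENNReal.ofReal (dens 5 * (1 / 8)) := by
          rw [ENNReal.ofReal_lt_ofReal_iff (by positivity [dens_pos 5])]
          linarith [dens_five]
      _ = ∫⁻ _ in Icc (4 : ℝ) 5, ENNReal.ofReal (dens 5 * (1 / 8)) := by
          rw [setLIntegral_const, Real.volume_Icc]; norm_num
      _ ≤ ∫⁻ x in Icc (4 : ℝ) 5, ENNReal.ofReal (dens x) * ν (Prod.mk x ⁻¹' Kᶜ) := by
          refine setLIntegral_mono' measurableSet_Icc fun x hx => ?_
          rw [ENNReal.ofReal_mul (dens_nonneg 5)]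
          refine mul_le_mul' (ENNReal.ofReal_le_ofReal (dens_le ?_)) (h x hx.1).le
          rw [abs_of_nonneg (by linarith [hx.1] : (0 : ℝ) ≤ x), abs_of_nonneg (by norm_num)]
          exact hx.2
      _ ≤ _ := by
          rw [prod_section hKm.compl]
          exact setLIntegral_le_lintegral _ _
  exact absurd this (not_lt.2 hγ)

/-- The shift lemma in coordinates. -/
theorem shift_prod (hν : MidLC ν) (hsym : ν.map Neg.neg = ν) {K : Set (ℝ × F)}
    (hKc : IsCompact K) (hK : Convex ℝ K) (hKs : ∀ p ∈ K, -p ∈ K)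
    (hγ : ((gaussianReal 0 1).prod ν) Kᶜ ≤ ENNReal.ofReal (1 / 20000000))
    {a : ℝ} (ha : 0 < a) (ha1 : a ≤ 1 / 40000) :
    ((gaussianReal 0 1).prod ν) K ≤ ((gaussianReal 0 1).prod ν) (star K a) := by
  have hKm : MeasurableSet K := hKc.measurableSet
  have hK'm : MeasurableSet (star K a) := (isCompact_star hKc a).measurableSet
  -- a set over which all fibres contain `[-4, 4]`
  obtain ⟨R, hR, hRν⟩ := exists_far_section hKm hγ
  set S : Set F := Prod.mk R ⁻¹' K
  have hSm : MeasurableSet S := hKm.preimage measurable_prodMk_left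
  set Z : Set F := S ∩ Neg.neg ⁻¹' S
  have hZm : MeasurableSet Z := hSm.inter (hSm.preimage measurable_neg)
  have hZ : ∀ z ∈ Z, ((-4 : ℝ), z) ∈ K ∧ ((4 : ℝ), z) ∈ K := by
    rintro z ⟨h1, h2⟩
    have h3 : (-R, z) ∈ K := by simpa using hKs _ h2
    exact ⟨fibre_mem hK h3 h1 (by linarith) (by linarith),
      fibre_mem hK h3 h1 (by linarith) hR⟩
  have hνZ : (3 / 4 : ℝ) ≤ ν.real Z := by
    have hc : ν.real Sᶜ ≤ 1 / 8 := ENNReal.toReal_le_of_le_ofReal (by norm_num) hRν
    have hc' : ν.real (Neg.neg ⁻¹' Sᶜ) = ν.real Sᶜ := by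
      rw [measureReal_def, measureReal_def, ← Measure.map_apply measurable_neg hSm.compl, hsym]
    have h1 : ν.real Zᶜ ≤ ν.real Sᶜ + ν.real (Neg.neg ⁻¹' Sᶜ) := by
      refine (measureReal_mono ?_).trans (measureReal_union_le _ _)
      rw [compl_inter]; rfl
    rw [measureReal_compl hZm, probReal_univ] at h1
    linarith
  -- loss and gain
  set B : Set (ℝ × F) := K \ Prod.snd ⁻¹' wide K (2 * a)
  set N : Set (ℝ × F) := star K a \ K
  have hBm : MeasurableSet B :=
    hKm.diff ((isCompact_wide hKc _).measurableSet.preimage measurable_snd)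
  have hNm : MeasurableSet N := hK'm.diff hKm
  suffices hBN : ((gaussianReal 0 1).prod ν) B ≤ ((gaussianReal 0 1).prod ν) N by
    have hsub : K \ star K a ⊆ B := fun p hp => ⟨hp.1, fun hw =>
      hp.2 (mem_star.2 ⟨hw, p.1, by simpa using ha.le, hp.1⟩)⟩
    calc ((gaussianReal 0 1).prod ν) K
        = ((gaussianReal 0 1).prod ν) (K ∩ star K a)
          + ((gaussianReal 0 1).prod ν) (K \ star K a) := (measure_inter_add_sdiff K hK'm).symm
      _ ≤ ((gaussianReal 0 1).prod ν) (star K a ∩ K)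
          + ((gaussianReal 0 1).prod ν) N := by
          rw [inter_comm]
          exact add_le_add le_rfl ((measure_mono hsub).trans hBN)
      _ = ((gaussianReal 0 1).prod ν) (star K a) := measure_inter_add_sdiff _ hKm
  set b : ℝ → ℝ≥0∞ := fun x => ν (Prod.mk x ⁻¹' B) with hb
  set n : ℝ → ℝ≥0∞ := fun x => ν (Prod.mk x ⁻¹' N) with hn
  have hbm : Measurable b := measurable_measure_prodMk_left hBm
  have hnm : Measurable n := measurable_measure_prodMk_left hNm
  have hdm : Measurable fun x => ENNReal.ofReal (dens x) := measurable_dens.ennreal_ofReal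
  have key : ∀ x, 4 ≤ x →
      (∀ s ∈ Icc (-x) x, b s ≤ ν (chord K x 0 \ chord K x (2 * a))) ∧
      (∫⁻ s in Icc (-x) x, b s
        ≤ ENNReal.ofReal (2 * a) * ν (chord K x 0 \ chord K x (2 * a))) ∧
      ν (chord K x 0 \ chord K x (2 * a))
        ≤ ENNReal.ofReal (3 / 2) * ∫⁻ s in Icc (-x) x, n s := by
    intro x hx
    set D := chord K x 0 \ chord K x (2 * a)
    set G := chord K x (2 * a) \ chord K x 4
    have hDm : MeasurableSet D :=
      (isCompact_chord hKc x 0).measurableSet.diff (isCompact_chord hKc x _).measurableSet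
    have hGm : MeasurableSet G :=
      (isCompact_chord hKc x _).measurableSet.diff (isCompact_chord hKc x _).measurableSet
    have hBD : ∀ s ∈ Icc (-x) x, ∀ y, (s, y) ∈ B → y ∈ D := by
      rintro s hs y ⟨hy, hyw⟩
      refine ⟨mem_chord.2 ⟨s, hy, by simpa using hy, hs.1, by simpa using hs.2⟩, fun hc => ?_⟩
      obtain ⟨r, r1, r2, -, -⟩ := mem_chord.1 hc
      exact hyw (mem_wide.2 ⟨r, r1, r2⟩)
    refine ⟨fun s hs => measure_mono fun y hy => hBD s hs y hy, ?_, ?_⟩
    · calc ∫⁻ s in Icc (-x) x, b s = ((volume.restrict (Icc (-x) x)).prod ν) B :=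
            (Measure.prod_apply hBm).symm
        _ = ∫⁻ y, (volume.restrict (Icc (-x) x)) ((fun s => (s, y)) ⁻¹' B) ∂ν :=
            Measure.prod_apply_symm hBm
        _ ≤ ∫⁻ y, D.indicator (fun _ => ENNReal.ofReal (2 * a)) y ∂ν := by
            refine lintegral_mono fun y => ?_
            rw [Measure.restrict_apply (hBm.preimage (by fun_prop))]
            rcases ((fun s => (s, y)) ⁻¹' B ∩ Icc (-x) x).eq_empty_or_nonempty with he | ⟨s, hs1, hs2⟩
            · simp [he]
            rw [indicator_of_mem (hBD s hs2 y hs1)]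
            refine (Real.volume_le_diam _).trans (Metric.ediam_le_of_forall_dist_le ?_)
            intro p hp q hq
            rw [Real.dist_eq]
            by_contra hpq
            push Not at hpq
            apply hs1.2
            rcases lt_abs.1 hpq with h | h
            · exact mem_wide.2 ⟨q, hq.1.1, fibre_mem hK hq.1.1 hp.1.1 (by linarith) (by linarith)⟩
            · exact mem_wide.2 ⟨p, hp.1.1, fibre_mem hK hp.1.1 hq.1.1 (by linarith) (by linarith)⟩
        _ = _ := lintegral_indicator_const hDm _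
    · have hgain : ENNReal.ofReal a * ν G ≤ ∫⁻ s in Icc (-x) x, n s := by
        calc ENNReal.ofReal a * ν G = ∫⁻ y, G.indicator (fun _ => ENNReal.ofReal a) y ∂ν :=
              (lintegral_indicator_const hGm _).symm
          _ ≤ ∫⁻ y, (volume.restrict (Icc (-x) x)) ((fun s => (s, y)) ⁻¹' N) ∂ν := by
              refine lintegral_mono fun y => ?_
              by_cases hy : y ∈ G
              · rw [indicator_of_mem hy, Measure.restrict_apply (hNm.preimage (by fun_prop))]
                obtain ⟨e, he⟩ := gain_interval hKc hK ha.le (by linarith) hx hy.1 hy.2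
                calc ENNReal.ofReal a = volume (Ioo e (e + a)) := by
                      rw [Real.volume_Ioo]; congr 1; ring
                  _ ≤ volume ((fun s => (s, y)) ⁻¹' N ∩ Icc (-x) x) := measure_mono fun s hs =>
                      ⟨⟨(he s hs).2.1, (he s hs).2.2⟩, (he s hs).1⟩
              · simp [hy]
          _ = ((volume.restrict (Icc (-x) x)).prod ν) N := (Measure.prod_apply_symm hNm).symm
          _ = _ := Measure.prod_apply hNm
      have hr := chord_measure hν hKc hK hZm hZ hνZ ha (by linarith) hx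
      calc ν D = ENNReal.ofReal (ν.real D) := (ofReal_measureReal (measure_ne_top _ _)).symm
        _ ≤ ENNReal.ofReal (3 / 2 * a * ν.real G) := ENNReal.ofReal_le_ofReal hr
        _ = ENNReal.ofReal (3 / 2) * (ENNReal.ofReal a * ν G) := by
            rw [ENNReal.ofReal_mul (by positivity), ENNReal.ofReal_mul (by norm_num),
              ofReal_measureReal (measure_ne_top _ _), mul_assoc]
        _ ≤ _ := mul_le_mul_right hgain _
  rw [prod_section hBm, prod_section hNm]
  set I := ∫⁻ x, ENNReal.ofReal (dens x) * n x with hI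
  show ∫⁻ x, ENNReal.ofReal (dens x) * b x ≤ I
  have small : ∫⁻ x in Icc (-4 : ℝ) 4, ENNReal.ofReal (dens x) * b x
      ≤ ENNReal.ofReal (1 / 4) * I := by
    calc ∫⁻ x in Icc (-4 : ℝ) 4, ENNReal.ofReal (dens x) * b x
        ≤ ∫⁻ x in Icc (-4 : ℝ) 4, ENNReal.ofReal (dens 0) * b x := by
          refine lintegral_mono fun x => ?_
          exact mul_le_mul_left (ENNReal.ofReal_le_ofReal (dens_le (by simp))) _
      _ = ENNReal.ofReal (dens 0) * ∫⁻ x in Icc (-4 : ℝ) 4, b x := lintegral_const_mul _ hbm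
      _ ≤ ENNReal.ofReal (dens 0) * (ENNReal.ofReal (2 * a) *
            (ENNReal.ofReal (3 / 2) * ∫⁻ s in Icc (-4 : ℝ) 4, n s)) := by
          gcongr
          exact (key 4 le_rfl).2.1.trans (mul_le_mul_right (key 4 le_rfl).2.2 _)
      _ = ENNReal.ofReal (3 * a) * ∫⁻ s in Icc (-4 : ℝ) 4, ENNReal.ofReal (dens 0) * n s := by
          rw [lintegral_const_mul _ hnm, show (3 * a : ℝ) = 2 * a * (3 / 2) by ring,
            ENNReal.ofReal_mul (p := 2 * a) (by positivity)]
          ring
      _ ≤ ENNReal.ofReal (3 * a) * ∫⁻ s in Icc (-4 : ℝ) 4,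
            ENNReal.ofReal 3000 * (ENNReal.ofReal (dens s) * n s) := by
          gcongr ENNReal.ofReal (3 * a) * ?_
          refine setLIntegral_mono' measurableSet_Icc fun s hs => ?_
          rw [← mul_assoc, ← ENNReal.ofReal_mul (by norm_num)]
          exact mul_le_mul_left (ENNReal.ofReal_le_ofReal (dens_ratio (abs_le.2 hs))) _
      _ ≤ ENNReal.ofReal (3 * a) * (ENNReal.ofReal 3000 * I) := by
          rw [lintegral_const_mul _ (hdm.fun_mul hnm)]
          exact mul_le_mul_right (mul_le_mul_right (setLIntegral_le_lintegral _ _) _) _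
      _ ≤ ENNReal.ofReal (1 / 4) * I := by
          rw [← mul_assoc, ← ENNReal.ofReal_mul (by positivity)]
          exact mul_le_mul_left (ENNReal.ofReal_le_ofReal (by linarith)) _
  have large : ∫⁻ x in (Icc (-4 : ℝ) 4)ᶜ, ENNReal.ofReal (dens x) * b x
      ≤ ENNReal.ofReal (3 / 4) * I := by
    set P : Set (ℝ × ℝ) := {p | 4 < |p.1| ∧ |p.2| ≤ |p.1|} with hP
    have hPm : MeasurableSet P :=
      (measurableSet_lt measurable_const (measurable_norm.comp measurable_fst)).inter
        (measurableSet_le (measurable_norm.comp measurable_snd)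
          (measurable_norm.comp measurable_fst))
    set f : ℝ → ℝ → ℝ≥0∞ := fun x s =>
      ENNReal.ofReal (3 / 2) * P.indicator (fun p => ENNReal.ofReal (dens p.1) * n p.2) (x, s)
    calc ∫⁻ x in (Icc (-4 : ℝ) 4)ᶜ, ENNReal.ofReal (dens x) * b x
        ≤ ∫⁻ x in (Icc (-4 : ℝ) 4)ᶜ, ∫⁻ s, f x s := by
          refine setLIntegral_mono' measurableSet_Icc.compl fun x hx => ?_
          have hx4 : 4 < |x| := by
            by_contra h
            push Not at h
            exact hx (abs_le.1 h)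
          have h1 := ((key |x| hx4.le).1 x ⟨neg_abs_le x, le_abs_self x⟩).trans (key |x| hx4.le).2.2
          calc ENNReal.ofReal (dens x) * b x
              ≤ ENNReal.ofReal (dens x) *
                (ENNReal.ofReal (3 / 2) * ∫⁻ s in Icc (-|x|) |x|, n s) := mul_le_mul_right h1 _
            _ = ∫⁻ s in Icc (-|x|) |x|,
                ENNReal.ofReal (3 / 2) * (ENNReal.ofReal (dens x) * n s) := by
                rw [lintegral_const_mul _ (hnm.const_mul _), lintegral_const_mul _ hnm]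
                ring
            _ = ∫⁻ s, f x s := by
                rw [← lintegral_indicator measurableSet_Icc]
                refine lintegral_congr fun s => ?_
                by_cases hs : s ∈ Icc (-|x|) |x|
                · have : (x, s) ∈ P := ⟨hx4, abs_le.2 hs⟩
                  simp [f, indicator_of_mem, hs, this]
                · have : (x, s) ∉ P := fun h => hs (abs_le.1 h.2)
                  simp [f, indicator_of_notMem, hs, this]
      _ ≤ ∫⁻ x, ∫⁻ s, f x s := setLIntegral_le_lintegral _ _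
      _ = ∫⁻ s, ∫⁻ x, f x s := by
          apply lintegral_lintegral_swap
          exact ((((hdm.comp measurable_fst).fun_mul (hnm.comp measurable_snd)).indicator hPm).const_mul
            _).aemeasurable
      _ ≤ ∫⁻ s, ENNReal.ofReal (3 / 4) * (ENNReal.ofReal (dens s) * n s) := by
          refine lintegral_mono fun s => ?_
          have hTm : MeasurableSet {t : ℝ | 4 < |t| ∧ |s| ≤ |t|} :=
            hPm.preimage (measurable_id.prodMk measurable_const : Measurable fun t : ℝ => (t, s))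
          calc ∫⁻ x, f x s
              = ∫⁻ x, {t : ℝ | 4 < |t| ∧ |s| ≤ |t|}.indicator (fun t =>
                  ENNReal.ofReal (3 / 2) * n s * ENNReal.ofReal (dens t)) x := by
                refine lintegral_congr fun x => ?_
                by_cases h : (x, s) ∈ P
                · simp only [f, indicator_of_mem h]
                  rw [indicator_of_mem (show x ∈ {t : ℝ | 4 < |t| ∧ |s| ≤ |t|} from h)]
                  ring
                · simp only [f, indicator_of_notMem h, mul_zero]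
                  rw [indicator_of_notMem (show x ∉ {t : ℝ | 4 < |t| ∧ |s| ≤ |t|} from h)]
            _ = ENNReal.ofReal (3 / 2) * n s *
                ∫⁻ t in {t : ℝ | 4 < |t| ∧ |s| ≤ |t|}, ENNReal.ofReal (dens t) := by
                rw [lintegral_indicator hTm, lintegral_const_mul _ hdm]
            _ ≤ ENNReal.ofReal (3 / 2) * n s * ENNReal.ofReal (dens s / 2) :=
                mul_le_mul_right lintegral_dens_band _
            _ = _ := by
                rw [show dens s / 2 = (1 / 2 : ℝ) * dens s by ring,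
                  ENNReal.ofReal_mul (by norm_num : (0 : ℝ) ≤ 1 / 2)]
                rw [show ENNReal.ofReal (3 / 2) * n s *
                    (ENNReal.ofReal (1 / 2) * ENNReal.ofReal (dens s))
                    = ENNReal.ofReal (3 / 2) * ENNReal.ofReal (1 / 2) *
                      (ENNReal.ofReal (dens s) * n s) by ring,
                  ← ENNReal.ofReal_mul (by norm_num : (0 : ℝ) ≤ 3 / 2)]
                norm_num
      _ = _ := lintegral_const_mul _ (hdm.fun_mul hnm)
  rw [← lintegral_add_compl _ (measurableSet_Icc (a := (-4 : ℝ)) (b := 4))]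
  refine (add_le_add small large).trans ?_
  rw [← add_mul, ← ENNReal.ofReal_add (by norm_num) (by norm_num)]
  norm_num

end Vale.Agent.P262.Gauss
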